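import Mathlib

/-!
Bernoulli bond percolation on a graph: open graph, clusters, critical values, cylinder
probabilities.
-/

open MeasureTheory ProbabilityTheory
open scoped ENNReal

namespace P165

variable {V : Type*}

/-- The graph of open edges of a configuration. -/
def openGraph (G : SimpleGraph V) (ω : Set (Sym2 V)) : SimpleGraph V :=
  SimpleGraph.fromEdgeSet (ω ∩ G.edgeSet)

/-- The cluster of a vertex. -/
def cluster (G : SimpleGraph V) (ω : Set (Sym2 V)) (x : V) : Set V :=
  {y | (openGraph G ω).Reachable x y}

/-- There is an infinite cluster. -/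
def percolates (G : SimpleGraph V) : Set (Set (Sym2 V)) :=
  {ω | ∃ x, (cluster G ω x).Infinite}

/-- There is exactly one infinite cluster. -/
def uniqueInf (G : SimpleGraph V) : Set (Set (Sym2 V)) :=
  {ω | ∃! c : (openGraph G ω).ConnectedComponent, c.supp.Infinite}

/-- The critical probability of Bernoulli bond percolation. -/
noncomputable def pc (G : SimpleGraph V) : ℝ :=
  sInf ((fun p : unitInterval => (p : ℝ)) ''
    {p | 0 < setBer(G.edgeSet, p) (percolates G)})

/-- The uniqueness threshold of Bernoulli bond percolation. -/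
noncomputable def pu (G : SimpleGraph V) : ℝ :=
  sInf ((fun p : unitInterval => (p : ℝ)) ''
    {p | setBer(G.edgeSet, p) (uniqueInf G) = 1})

lemma openGraph_adj {G : SimpleGraph V} {ω : Set (Sym2 V)} {x y : V} :
    (openGraph G ω).Adj x y ↔ G.Adj x y ∧ s(x, y) ∈ ω := by
  simp only [openGraph, SimpleGraph.fromEdgeSet_adj, Set.mem_inter_iff,
    SimpleGraph.mem_edgeSet]
  constructor
  · rintro ⟨⟨a, b⟩, -⟩; exact ⟨b, a⟩
  · rintro ⟨a, b⟩; exact ⟨⟨b, a⟩, a.ne⟩

lemma openGraph_mono (G : SimpleGraph V) {ω ω' : Set (Sym2 V)} (h : ω ⊆ ω') :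
    openGraph G ω ≤ openGraph G ω' := by
  intro x y hxy
  rw [openGraph_adj] at hxy ⊢
  exact ⟨hxy.1, h hxy.2⟩

/-- The cylinder event: all edges of `O` open, all edges of `C` closed. -/
def pat (O C : Finset (Sym2 V)) : Set (Set (Sym2 V)) :=
  {ω | ↑O ⊆ ω ∧ Disjoint (↑C : Set (Sym2 V)) ω}

open scoped Classical in
lemma measure_pat (E : Set (Sym2 V)) (p : unitInterval) {O C : Finset (Sym2 V)}
    (hd : Disjoint O C) (hE : ↑(O ∪ C) ⊆ E) :
    (setBer(E, p)).real (pat O C) = (p : ℝ) ^ O.card * (1 - (p : ℝ)) ^ C.card := by
  have key : (fun q : Sym2 V → Prop => {e | q e}) ⁻¹' (pat O C) =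
      ((O ∪ C : Finset (Sym2 V)) : Set (Sym2 V)).pi
        (fun e => if e ∈ O then {True} else {False}) := by
    ext q
    simp only [pat, Set.mem_preimage, Set.mem_ofPred_eq, Set.mem_pi, Finset.mem_coe,
      Set.disjoint_left, Finset.mem_union]
    constructor
    · rintro ⟨h1, h2⟩ e he
      by_cases heO : e ∈ O
      · simpa [heO] using (eq_true (h1 heO))
      · have : ¬ q e := h2 (he.resolve_left heO)
        simpa [heO] using (eq_false this)
    · intro h
      constructor
      · intro e he
        have := h e (Or.inl he)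
        rw [if_pos (Finset.mem_coe.1 he)] at this
        exact of_eq_true (Set.mem_singleton_iff.1 this)
      · intro e he
        have hn : e ∉ O := fun h' => Finset.disjoint_left.1 hd h' he
        have := h e (Or.inr he)
        rw [if_neg hn] at this
        exact fun h' => (Set.mem_singleton_iff.1 this).mp h'
  rw [measureReal_def, setBernoulli_apply', key, Measure.infinitePi_pi]
  · rw [Finset.prod_union hd, ENNReal.toReal_mul, ENNReal.toReal_prod, ENNReal.toReal_prod]
    congr 1
    · rw [Finset.prod_congr rfl (g := fun _ => (p : ℝ))]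
      · simp
      · intro e he
        have heE : e ∈ E := hE (by simp [he])
        simp [he, heE]
    · rw [Finset.prod_congr rfl (g := fun _ => (1 - (p : ℝ)))]
      · simp
      · intro e he
        have hn : e ∉ O := fun h' => Finset.disjoint_left.1 hd h' he
        have heE : e ∈ E := hE (by simp [he])
        simp [hn, heE]
  · intro e _; exact trivial

end P165
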