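import Vale.Agent.P165.Basic

/-!
Two-level exploration of a cluster in a box product `B □ H`: small sets of `H` have large
boundary, all finite sets of `B` have boundary proportional to their size.
-/

open MeasureTheory ProbabilityTheory SimpleGraph
open scoped ENNReal Classical

namespace P165

variable {W U : Type*} {B : SimpleGraph W} {H : SimpleGraph U}

/-- The product weight of a cylinder. -/
def wt {α : Type*} (p : ℝ) (O C : Finset α) : ℝ := p ^ O.card * (1 - p) ^ C.card

/-- Admissible exploration state with `z` reachable. -/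
structure Ok (G : SimpleGraph (W × U)) (O C : Finset (Sym2 (W × U))) : Prop where
  disj : Disjoint O C
  sub : ∀ e ∈ O ∪ C, e ∈ G.edgeSet

lemma Ok.insO {G : SimpleGraph (W × U)} {O C : Finset (Sym2 (W × U))} (h : Ok G O C)
    {e : Sym2 (W × U)} (he : e ∈ G.edgeSet) (hn : e ∉ O ∪ C) : Ok G (insert e O) C := by
  constructor
  · rw [Finset.disjoint_insert_left]
    exact ⟨fun h' => hn (Finset.mem_union_right _ h'), h.disj⟩
  · intro f hf
    simp only [Finset.mem_union, Finset.mem_insert] at hf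
    rcases hf with (rfl | hf) | hf
    · exact he
    · exact h.sub f (Finset.mem_union_left _ hf)
    · exact h.sub f (Finset.mem_union_right _ hf)

lemma Ok.insC {G : SimpleGraph (W × U)} {O C : Finset (Sym2 (W × U))} (h : Ok G O C)
    {e : Sym2 (W × U)} (he : e ∈ G.edgeSet) (hn : e ∉ O ∪ C) : Ok G O (insert e C) := by
  constructor
  · rw [Finset.disjoint_insert_right]
    exact ⟨fun h' => hn (Finset.mem_union_left _ h'), h.disj⟩
  · intro f hf
    simp only [Finset.mem_union, Finset.mem_insert] at hf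
    rcases hf with hf | rfl | hf
    · exact h.sub f (Finset.mem_union_left _ hf)
    · exact he
    · exact h.sub f (Finset.mem_union_right _ hf)

section

variable (p : unitInterval) (G : SimpleGraph (W × U))

lemma pat_le_wt (EV : Set (Set (Sym2 (W × U)))) {O C : Finset (Sym2 (W × U))} (h : Ok G O C) :
    setBer(G.edgeSet, p).real (EV ∩ pat O C) ≤ wt (p : ℝ) O C := by
  exact (measureReal_mono Set.inter_subset_right).trans_eq
    (measure_pat G.edgeSet p h.disj (fun e he => h.sub e (by simpa using he)))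

/-- One exploration step: split on the state of a fresh edge. -/
lemma split_step (EV : Set (Set (Sym2 (W × U)))) {O C : Finset (Sym2 (W × U))}
    {e : Sym2 (W × U)} (hn : e ∉ O ∪ C) {a b : ℝ}
    (ha : setBer(G.edgeSet, p).real (EV ∩ pat (insert e O) C) ≤ wt (p : ℝ) (insert e O) C * a)
    (hb : setBer(G.edgeSet, p).real (EV ∩ pat O (insert e C)) ≤ wt (p : ℝ) O (insert e C) * b) :
    setBer(G.edgeSet, p).real (EV ∩ pat O C) ≤
      wt (p : ℝ) O C * ((p : ℝ) * a + (1 - (p : ℝ)) * b) := by
  have hO : e ∉ O := fun h => hn (Finset.mem_union_left _ h)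
  have hC : e ∉ C := fun h => hn (Finset.mem_union_right _ h)
  have hsub : EV ∩ pat O C ⊆ (EV ∩ pat (insert e O) C) ∪ (EV ∩ pat O (insert e C)) := by
    rintro ω ⟨h1, h2, h3⟩
    by_cases he : e ∈ ω
    · left
      exact ⟨h1, by rw [Finset.coe_insert, Set.insert_subset_iff]; exact ⟨he, h2⟩, h3⟩
    · right
      exact ⟨h1, h2, by rw [Finset.coe_insert, Set.disjoint_insert_left]; exact ⟨he, h3⟩⟩
  calc setBer(G.edgeSet, p).real (EV ∩ pat O C)
      ≤ setBer(G.edgeSet, p).real
          ((EV ∩ pat (insert e O) C) ∪ (EV ∩ pat O (insert e C))) := measureReal_mono hsub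
    _ ≤ _ := measureReal_union_le _ _
    _ ≤ wt (p : ℝ) (insert e O) C * a + wt (p : ℝ) O (insert e C) * b := add_le_add ha hb
    _ = wt (p : ℝ) O C * ((p : ℝ) * a + (1 - (p : ℝ)) * b) := by
      simp only [wt, Finset.card_insert_of_notMem hO, Finset.card_insert_of_notMem hC, pow_succ]
      ring

end

lemma wt_nonneg {α : Type*} (p : unitInterval) (O C : Finset α) : 0 ≤ wt (p : ℝ) O C :=
  mul_nonneg (pow_nonneg p.2.1 _) (pow_nonneg (by linarith [p.2.2]) _)

/-- New edges confined to the vertex sets over `S`. -/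
def Confined (S : Finset W) (O C O' C' : Finset (Sym2 (W × U))) : Prop :=
  ∀ e, (e ∈ O' ∨ e ∈ C') → e ∈ O ∨ e ∈ C ∨ ∀ z ∈ e, z.1 ∈ S

lemma Confined.refl (S : Finset W) (O C : Finset (Sym2 (W × U))) : Confined S O C O C :=
  fun _ h => h.elim Or.inl (fun h => Or.inr (Or.inl h))

lemma Confined.insO {S : Finset W} {O C O' C' : Finset (Sym2 (W × U))} {f : Sym2 (W × U)}
    (h : Confined S (insert f O) C O' C') (hf : ∀ z ∈ f, z.1 ∈ S) :
    Confined S O C O' C' := by
  intro e he
  rcases h e he with h1 | h1 | h1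
  · rcases Finset.mem_insert.1 h1 with rfl | h1
    · exact Or.inr (Or.inr hf)
    · exact Or.inl h1
  · exact Or.inr (Or.inl h1)
  · exact Or.inr (Or.inr h1)

lemma Confined.insC {S : Finset W} {O C O' C' : Finset (Sym2 (W × U))} {f : Sym2 (W × U)}
    (h : Confined S O (insert f C) O' C') (hf : ∀ z ∈ f, z.1 ∈ S) :
    Confined S O C O' C' := by
  intro e he
  rcases h e he with h1 | h1 | h1
  · exact Or.inl h1
  · rcases Finset.mem_insert.1 h1 with rfl | h1
    · exact Or.inr (Or.inr hf)
    · exact Or.inr (Or.inl h1)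
  · exact Or.inr (Or.inr h1)

lemma Confined.mono {S T : Finset W} {O C O' C' : Finset (Sym2 (W × U))}
    (h : Confined S O C O' C') (hST : S ⊆ T) : Confined T O C O' C' :=
  fun e he => (h e he).imp id (Or.imp id (fun h1 z hz => hST (h1 z hz)))

lemma reach_mono {G : SimpleGraph (W × U)} {O O' : Finset (Sym2 (W × U))} (h : O ⊆ O')
    {x y : W × U} (hr : (openGraph G (O : Set (Sym2 (W × U)))).Reachable x y) :
    (openGraph G (O' : Set (Sym2 (W × U)))).Reachable x y :=
  hr.mono (openGraph_mono G (Finset.coe_subset.2 h))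

lemma fibre_edge {w : W} {a b : U} (h : H.Adj a b) : s((w, a), (w, b)) ∈ (B □ H).edgeSet := by
  simp [h]

lemma cross_edge {v w : W} {a : U} (h : B.Adj v w) : s((v, a), (w, a)) ∈ (B □ H).edgeSet := by
  simp [h]

variable [H.LocallyFinite]

/-- The edge boundary of a finite set, as a set of oriented edges. -/
noncomputable def cut (H : SimpleGraph U) [H.LocallyFinite] (A : Finset U) : Finset (U × U) :=
  A.biUnion (fun a => ((H.neighborFinset a).filter (· ∉ A)).image (fun b => (a, b)))

lemma mem_cut {A : Finset U} {q : U × U} :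
    q ∈ cut H A ↔ q.1 ∈ A ∧ q.2 ∉ A ∧ H.Adj q.1 q.2 := by
  classical
  obtain ⟨a, b⟩ := q
  simp [cut, and_comm, and_left_comm]

/-- Exploration inside one fibre. -/
lemma inner (p : unitInterval) (x0 : W × U) (EV : Set (Set (Sym2 (W × U)))) (M β : ℕ)
    (r u R Uu : ℝ) (hr : 0 ≤ r) (hu : 1 ≤ u) (hru : 1 ≤ r * u ^ β)
    (hpr : (p : ℝ) * r + (1 - (p : ℝ)) * u ≤ 1) (hRU : R ≤ Uu)
    (hexp : ∀ A : Finset U, A.card < M → β * A.card ≤ (cut H A).card) (w : W) :
    ∀ (m : ℕ) (O C : Finset (Sym2 (W × U))) (A : Finset U) (Cw : Finset (Sym2 (W × U))),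
      M - A.card = m → Ok (B □ H) O C →
      (∀ q ∈ cut H A, s((w, q.1), (w, q.2)) ∈ O ∪ C → s((w, q.1), (w, q.2)) ∈ Cw) →
      (∀ a b, s((w, a), (w, b)) ∈ O ∪ C → a ∈ A ∨ b ∈ A) →
      (∀ a ∈ A, (openGraph (B □ H) (O : Set (Sym2 (W × U)))).Reachable x0 (w, a)) →
      (∀ O' C' (A' : Finset U), Ok (B □ H) O' C' → O ⊆ O' → C ⊆ C' → Confined {w} O C O' C' →
        (∀ a ∈ A', (openGraph (B □ H) (O' : Set (Sym2 (W × U)))).Reachable x0 (w, a)) →
        M ≤ A'.card →
        setBer((B □ H).edgeSet, p).real (EV ∩ pat O' C') ≤ wt (p : ℝ) O' C' * R) →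
      (∀ O' C', Ok (B □ H) O' C' → O ⊆ O' → C ⊆ C' → Confined {w} O C O' C' →
        setBer((B □ H).edgeSet, p).real (EV ∩ pat O' C') ≤ wt (p : ℝ) O' C' * Uu) →
      setBer((B □ H).edgeSet, p).real (EV ∩ pat O C) ≤
        wt (p : ℝ) O C * (R + r ^ A.card * u ^ Cw.card * (Uu - R)) := by
  intro m
  induction m using Nat.strong_induction_on with
  | _ m ih =>
  intro O C A
  suffices hk : ∀ (k : ℕ) (C Cw : Finset (Sym2 (W × U))),
      ((cut H A).filter (fun q => s((w, q.1), (w, q.2)) ∉ O ∪ C)).card = k →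
      M - A.card = m → Ok (B □ H) O C →
      (∀ q ∈ cut H A, s((w, q.1), (w, q.2)) ∈ O ∪ C → s((w, q.1), (w, q.2)) ∈ Cw) →
      (∀ a b, s((w, a), (w, b)) ∈ O ∪ C → a ∈ A ∨ b ∈ A) →
      (∀ a ∈ A, (openGraph (B □ H) (O : Set (Sym2 (W × U)))).Reachable x0 (w, a)) →
      (∀ O' C' (A' : Finset U), Ok (B □ H) O' C' → O ⊆ O' → C ⊆ C' → Confined {w} O C O' C' →
        (∀ a ∈ A', (openGraph (B □ H) (O' : Set (Sym2 (W × U)))).Reachable x0 (w, a)) →
        M ≤ A'.card →
        setBer((B □ H).edgeSet, p).real (EV ∩ pat O' C') ≤ wt (p : ℝ) O' C' * R) →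
      (∀ O' C', Ok (B □ H) O' C' → O ⊆ O' → C ⊆ C' → Confined {w} O C O' C' →
        setBer((B □ H).edgeSet, p).real (EV ∩ pat O' C') ≤ wt (p : ℝ) O' C' * Uu) →
      setBer((B □ H).edgeSet, p).real (EV ∩ pat O C) ≤
        wt (p : ℝ) O C * (R + r ^ A.card * u ^ Cw.card * (Uu - R)) from
    fun Cw => hk _ C Cw rfl
  clear C
  intro k
  induction k using Nat.strong_induction_on with
  | _ k ihk =>
  intro C Cw hkc hm hok hused hin hreach hsucc hfail
  have hphi : 0 ≤ r ^ A.card * u ^ Cw.card :=
    mul_nonneg (pow_nonneg hr _) (pow_nonneg (zero_le_one.trans hu) _)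
  by_cases hA : M ≤ A.card
  · refine (hsucc O C A hok subset_rfl subset_rfl (Confined.refl _ _ _) hreach hA).trans ?_
    exact mul_le_mul_of_nonneg_left (by nlinarith) (wt_nonneg p O C)
  by_cases hne : ((cut H A).filter (fun q => s((w, q.1), (w, q.2)) ∉ O ∪ C)).Nonempty
  · obtain ⟨⟨a, b⟩, hab⟩ := hne
    obtain ⟨hcut, hfresh⟩ := Finset.mem_filter.1 hab
    obtain ⟨ha, hb, hadj⟩ := mem_cut.1 hcut
    set e : Sym2 (W × U) := s((w, a), (w, b)) with he
    have heE : e ∈ (B □ H).edgeSet := fibre_edge hadj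
    have hez : ∀ z ∈ e, z.1 ∈ ({w} : Finset W) := by
      intro z hz
      rcases Sym2.mem_iff.1 hz with rfl | rfl <;> simp
    have hopen : setBer((B □ H).edgeSet, p).real (EV ∩ pat (insert e O) C) ≤
        wt (p : ℝ) (insert e O) C *
          (R + r ^ (A.card + 1) * u ^ Cw.card * (Uu - R)) := by
      have hcard : (insert b A).card = A.card + 1 := Finset.card_insert_of_notMem hb
      rw [← hcard]
      refine ih (M - (insert b A).card) (by omega) (insert e O) C (insert b A) Cw rfl
        (hok.insO heE hfresh) ?_ ?_ ?_ ?_ ?_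
      · intro q hq hqu
        obtain ⟨hq1, hq2, hqa⟩ := mem_cut.1 hq
        simp only [Finset.mem_union, Finset.mem_insert] at hqu
        rcases hqu with (hqe | hqu) | hqu
        · exfalso
          rw [he, Sym2.eq_iff] at hqe
          apply hq2
          rcases hqe with ⟨-, h2⟩ | ⟨-, h2⟩
          · simp [(Prod.mk.inj h2).2]
          · simp [(Prod.mk.inj h2).2, ha]
        · by_cases hqA : q.1 ∈ A
          · exact hused q (mem_cut.2 ⟨hqA, fun h => hq2 (Finset.mem_insert_of_mem h), hqa⟩)
              (Finset.mem_union_left _ hqu)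
          · exfalso
            exact (hin q.1 q.2 (Finset.mem_union_left _ hqu)).elim hqA
              (fun h => hq2 (Finset.mem_insert_of_mem h))
        · by_cases hqA : q.1 ∈ A
          · exact hused q (mem_cut.2 ⟨hqA, fun h => hq2 (Finset.mem_insert_of_mem h), hqa⟩)
              (Finset.mem_union_right _ hqu)
          · exfalso
            exact (hin q.1 q.2 (Finset.mem_union_right _ hqu)).elim hqA
              (fun h => hq2 (Finset.mem_insert_of_mem h))
      · intro a' b' hab'
        simp only [Finset.mem_union, Finset.mem_insert] at hab'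
        rcases hab' with (hqe | hqu) | hqu
        · rw [he, Sym2.eq_iff] at hqe
          rcases hqe with ⟨-, h2⟩ | ⟨h1, -⟩
          · right; simp [(Prod.mk.inj h2).2]
          · left; simp [(Prod.mk.inj h1).2]
        · exact (hin a' b' (Finset.mem_union_left _ hqu)).imp
            Finset.mem_insert_of_mem Finset.mem_insert_of_mem
        · exact (hin a' b' (Finset.mem_union_right _ hqu)).imp
            Finset.mem_insert_of_mem Finset.mem_insert_of_mem
      · intro z hz
        rcases Finset.mem_insert.1 hz with rfl | hz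
        · refine (reach_mono (Finset.subset_insert _ _) (hreach a ha)).trans
            (SimpleGraph.Adj.reachable ?_)
          rw [openGraph_adj]
          exact ⟨by simp [hadj], by simp [he]⟩
        · exact reach_mono (Finset.subset_insert _ _) (hreach z hz)
      · intro O' C' A' h1 h2 h3 h4 h5 h6
        exact hsucc O' C' A' h1 ((Finset.subset_insert _ _).trans h2) h3 (h4.insO hez) h5 h6
      · intro O' C' h1 h2 h3 h4
        exact hfail O' C' h1 ((Finset.subset_insert _ _).trans h2) h3 (h4.insO hez)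
    have hclosed : setBer((B □ H).edgeSet, p).real (EV ∩ pat O (insert e C)) ≤
        wt (p : ℝ) O (insert e C) *
          (R + r ^ A.card * u ^ (insert e Cw).card * (Uu - R)) := by
      refine ihk _ ?_ (insert e C) (insert e Cw) rfl hm (hok.insC heE hfresh) ?_ ?_ hreach ?_ ?_
      · rw [← hkc]
        apply Finset.card_lt_card
        rw [Finset.ssubset_iff_of_subset]
        · exact ⟨(a, b), hab, by simp [he]⟩
        · intro q hq
          simp only [Finset.mem_filter, Finset.mem_union, Finset.mem_insert, not_or] at hq ⊢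
          exact ⟨hq.1, hq.2.1, hq.2.2.2⟩
      · intro q hq hqu
        simp only [Finset.mem_union, Finset.mem_insert] at hqu ⊢
        rcases hqu with hqu | hqu | hqu
        · exact Or.inr (hused q hq (Finset.mem_union_left _ hqu))
        · exact Or.inl hqu
        · exact Or.inr (hused q hq (Finset.mem_union_right _ hqu))
      · intro a' b' hab'
        simp only [Finset.mem_union, Finset.mem_insert] at hab'
        rcases hab' with hqu | hqe | hqu
        · exact hin a' b' (Finset.mem_union_left _ hqu)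
        · rw [he, Sym2.eq_iff] at hqe
          rcases hqe with ⟨h1, -⟩ | ⟨-, h2⟩
          · left; simpa [(Prod.mk.inj h1).2] using ha
          · right; simpa [(Prod.mk.inj h2).2] using ha
        · exact hin a' b' (Finset.mem_union_right _ hqu)
      · intro O' C' A' h1 h2 h3 h4 h5 h6
        exact hsucc O' C' A' h1 h2 ((Finset.subset_insert _ _).trans h3) (h4.insC hez) h5 h6
      · intro O' C' h1 h2 h3 h4
        exact hfail O' C' h1 h2 ((Finset.subset_insert _ _).trans h3) (h4.insC hez)
    refine (split_step p (B □ H) EV hfresh hopen hclosed).trans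
      (mul_le_mul_of_nonneg_left ?_ (wt_nonneg p O C))
    have hcard : u ^ (insert e Cw).card ≤ u ^ Cw.card * u := by
      rw [← pow_succ]
      exact pow_le_pow_right₀ hu (Finset.card_insert_le _ _)
    have h1 : r ^ A.card * u ^ (insert e Cw).card ≤ r ^ A.card * (u ^ Cw.card * u) :=
      mul_le_mul_of_nonneg_left hcard (pow_nonneg hr _)
    have hp1 : 0 ≤ 1 - (p : ℝ) := by linarith [p.2.2]
    have hd : 0 ≤ Uu - R := by linarith
    rw [pow_succ]
    nlinarith [mul_le_mul_of_nonneg_left h1 (mul_nonneg hp1 hd),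
      mul_le_mul_of_nonneg_left hpr (mul_nonneg hphi hd)]
  · refine (hfail O C hok subset_rfl subset_rfl (Confined.refl _ _ _)).trans
      (mul_le_mul_of_nonneg_left ?_ (wt_nonneg p O C))
    have hC : (cut H A).card ≤ Cw.card := by
      refine Finset.card_le_card_of_injOn (fun q => s((w, q.1), (w, q.2))) ?_ ?_
      · intro q hq
        refine hused q hq ?_
        by_contra hc
        exact hne ⟨q, Finset.mem_filter.2 ⟨hq, hc⟩⟩
      · intro q hq q' hq' h
        obtain ⟨h1, h2, -⟩ := mem_cut.1 hq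
        obtain ⟨h1', h2', -⟩ := mem_cut.1 hq'
        rcases Sym2.eq_iff.1 h with ⟨ha, hb⟩ | ⟨ha, hb⟩
        · exact Prod.ext (Prod.mk.inj ha).2 (Prod.mk.inj hb).2
        · exact absurd ((Prod.mk.inj ha).2 ▸ h1) h2'
    have h1 : 1 ≤ r ^ A.card * u ^ Cw.card := by
      calc (1 : ℝ) ≤ (r * u ^ β) ^ A.card := one_le_pow₀ hru
        _ = r ^ A.card * u ^ (β * A.card) := by rw [mul_pow, ← pow_mul]
        _ ≤ r ^ A.card * u ^ Cw.card := mul_le_mul_of_nonneg_left
            (pow_le_pow_right₀ hu ((hexp A (not_le.1 hA)).trans hC)) (pow_nonneg hr _)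
    nlinarith

/-- Attempt to occupy fibre `w` from `M` reached vertices in the neighbouring fibre `v`. -/
lemma cross (p : unitInterval) (x0 : W × U) (EV : Set (Set (Sym2 (W × U)))) (M β : ℕ)
    (r u R Uu : ℝ) (hr : 0 ≤ r) (hu : 1 ≤ u) (hru : 1 ≤ r * u ^ β)
    (hpr : (p : ℝ) * r + (1 - (p : ℝ)) * u ≤ 1) (hRU : R ≤ Uu)
    (hexp : ∀ A : Finset U, A.card < M → β * A.card ≤ (cut H A).card) {v w : W} (hvw : B.Adj v w) :
    ∀ (L : Finset U) (O C : Finset (Sym2 (W × U))) (A : Finset U), Ok (B □ H) O C →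
      (∀ k ∈ L, s((v, k), (w, k)) ∉ O ∪ C) →
      (∀ a b, s((w, a), (w, b)) ∉ O ∪ C) →
      Disjoint A L →
      (∀ k ∈ L, (openGraph (B □ H) (O : Set (Sym2 (W × U)))).Reachable x0 (v, k)) →
      (∀ a ∈ A, (openGraph (B □ H) (O : Set (Sym2 (W × U)))).Reachable x0 (w, a)) →
      (∀ O' C' (A' : Finset U), Ok (B □ H) O' C' → O ⊆ O' → C ⊆ C' →
        Confined {v, w} O C O' C' →
        (∀ a ∈ A', (openGraph (B □ H) (O' : Set (Sym2 (W × U)))).Reachable x0 (w, a)) →
        M ≤ A'.card →
        setBer((B □ H).edgeSet, p).real (EV ∩ pat O' C') ≤ wt (p : ℝ) O' C' * R) →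
      (∀ O' C', Ok (B □ H) O' C' → O ⊆ O' → C ⊆ C' → Confined {v, w} O C O' C' →
        setBer((B □ H).edgeSet, p).real (EV ∩ pat O' C') ≤ wt (p : ℝ) O' C' * Uu) →
      setBer((B □ H).edgeSet, p).real (EV ∩ pat O C) ≤
        wt (p : ℝ) O C *
          (R + ((p : ℝ) * r + (1 - (p : ℝ))) ^ L.card * r ^ A.card * (Uu - R)) := by
  intro L
  induction L using Finset.induction_on with
  | empty =>
    intro O C A hok _ hfib _ _ hreach hsucc hfail
    have := inner (B := B) p x0 EV M β r u R Uu hr hu hru hpr hRU hexp w _ O C A ∅ rfl hok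
      (fun q _ h => absurd h (hfib _ _)) (fun a b h => absurd h (hfib a b)) hreach
      (fun O' C' A' h1 h2 h3 h4 => hsucc O' C' A' h1 h2 h3 (h4.mono (by simp)))
      (fun O' C' h1 h2 h3 h4 => hfail O' C' h1 h2 h3 (h4.mono (by simp)))
    simpa using this
  | insert k L hk ih =>
    intro O C A hok hfr hfib hdis hL hreach hsucc hfail
    have hne : v ≠ w := hvw.ne
    set e : Sym2 (W × U) := s((v, k), (w, k)) with he
    have hfresh : e ∉ O ∪ C := hfr k (Finset.mem_insert_self _ _)
    have heE : e ∈ (B □ H).edgeSet := cross_edge hvw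
    have hez : ∀ z ∈ e, z.1 ∈ ({v, w} : Finset W) := by
      intro z hz
      rcases Sym2.mem_iff.1 hz with rfl | rfl <;> simp
    have hne' : ∀ k' ∈ L, s((v, k'), (w, k')) ≠ e := by
      intro k' hk' h
      rw [he, Sym2.eq_iff] at h
      rcases h with ⟨h1, -⟩ | ⟨h1, -⟩
      · exact hk ((Prod.mk.inj h1).2 ▸ hk')
      · exact hne (Prod.mk.inj h1).1
    have hfib' : ∀ a b, s((w, a), (w, b)) ≠ e := by
      intro a b h
      rw [he, Sym2.eq_iff] at h
      rcases h with ⟨h1, -⟩ | ⟨-, h2⟩
      · exact hne (Prod.mk.inj h1).1.symm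
      · exact hne (Prod.mk.inj h2).1.symm
    rw [Finset.disjoint_insert_right] at hdis
    have hopen := ih (insert e O) C (insert k A) (hok.insO heE hfresh)
      (fun k' hk' h => by
        simp only [Finset.mem_union, Finset.mem_insert] at h
        rcases h with (h | h) | h
        · exact hne' k' hk' h
        · exact hfr k' (Finset.mem_insert_of_mem hk') (Finset.mem_union_left _ h)
        · exact hfr k' (Finset.mem_insert_of_mem hk') (Finset.mem_union_right _ h))
      (fun a b h => by
        simp only [Finset.mem_union, Finset.mem_insert] at h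
        rcases h with (h | h) | h
        · exact hfib' a b h
        · exact hfib a b (Finset.mem_union_left _ h)
        · exact hfib a b (Finset.mem_union_right _ h))
      (by rw [Finset.disjoint_insert_left]; exact ⟨hk, hdis.2⟩)
      (fun k' hk' => reach_mono (Finset.subset_insert _ _) (hL k' (Finset.mem_insert_of_mem hk')))
      (fun a ha => by
        rcases Finset.mem_insert.1 ha with rfl | ha
        · refine (reach_mono (Finset.subset_insert _ _)
            (hL a (Finset.mem_insert_self _ _))).trans (SimpleGraph.Adj.reachable ?_)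
          rw [openGraph_adj]
          exact ⟨by simp [hvw], by simp [he]⟩
        · exact reach_mono (Finset.subset_insert _ _) (hreach a ha))
      (fun O' C' A' h1 h2 h3 h4 =>
        hsucc O' C' A' h1 ((Finset.subset_insert _ _).trans h2) h3 (h4.insO hez))
      (fun O' C' h1 h2 h3 h4 =>
        hfail O' C' h1 ((Finset.subset_insert _ _).trans h2) h3 (h4.insO hez))
    have hclosed := ih O (insert e C) A (hok.insC heE hfresh)
      (fun k' hk' h => by
        simp only [Finset.mem_union, Finset.mem_insert] at h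
        rcases h with h | h | h
        · exact hfr k' (Finset.mem_insert_of_mem hk') (Finset.mem_union_left _ h)
        · exact hne' k' hk' h
        · exact hfr k' (Finset.mem_insert_of_mem hk') (Finset.mem_union_right _ h))
      (fun a b h => by
        simp only [Finset.mem_union, Finset.mem_insert] at h
        rcases h with h | h | h
        · exact hfib a b (Finset.mem_union_left _ h)
        · exact hfib' a b h
        · exact hfib a b (Finset.mem_union_right _ h))
      hdis.2 (fun k' hk' => hL k' (Finset.mem_insert_of_mem hk')) hreach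
      (fun O' C' A' h1 h2 h3 h4 =>
        hsucc O' C' A' h1 h2 ((Finset.subset_insert _ _).trans h3) (h4.insC hez))
      (fun O' C' h1 h2 h3 h4 =>
        hfail O' C' h1 h2 ((Finset.subset_insert _ _).trans h3) (h4.insC hez))
    rw [Finset.card_insert_of_notMem hdis.1] at hopen
    refine (split_step p (B □ H) EV hfresh hopen hclosed).trans (le_of_eq ?_)
    rw [Finset.card_insert_of_notMem hk, pow_succ, pow_succ]
    ring

variable [B.LocallyFinite]

/-- The outer vertex boundary. -/
noncomputable def bdry (B : SimpleGraph W) [B.LocallyFinite] (A : Finset W) : Finset W :=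
  A.biUnion (fun a => B.neighborFinset a) \ A

/-- Few vertices are joined to `x0`. -/
def smallEv (G : SimpleGraph (W × U)) (x0 : W × U) (N : ℕ) : Set (Set (Sym2 (W × U))) :=
  {ω | ¬ ∃ S : Finset (W × U), N ≤ S.card ∧ ∀ z ∈ S, (openGraph G ω).Reachable x0 z}

/-- Renormalised exploration over the base graph. -/
lemma outer (p : unitInterval) (x0 : W × U) (N M β K : ℕ) (r u R Uu : ℝ)
    (hr : 0 ≤ r) (hu : 1 ≤ u) (hru : 1 ≤ r * u ^ β)
    (hpr : (p : ℝ) * r + (1 - (p : ℝ)) * u ≤ 1) (hR : 0 ≤ R) (hRU : R ≤ Uu) (hM : 1 ≤ M)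
    (hexp : ∀ A : Finset U, A.card < M → β * A.card ≤ (cut H A).card)
    (hdead : ∀ a f : ℕ, a ≤ K * f → 1 ≤ R ^ a * Uu ^ f)
    (hstep : R + ((p : ℝ) * r + (1 - (p : ℝ))) ^ M * (Uu - R) ≤ 1)
    (hexpB : ∀ A : Finset W, A.card ≤ K * (bdry B A).card) :
    ∀ (n : ℕ) (O C : Finset (Sym2 (W × U))) (A F : Finset W) (Ks : W → Finset U),
      N - A.card = n → Ok (B □ H) O C → Disjoint A F →
      (∀ e ∈ O ∪ C, ∀ z ∈ e, z.1 ∈ A ∪ F) →
      (∀ w ∈ A, M ≤ (Ks w).card ∧
        ∀ a ∈ Ks w, (openGraph (B □ H) (O : Set (Sym2 (W × U)))).Reachable x0 (w, a)) →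
      setBer((B □ H).edgeSet, p).real (smallEv (B □ H) x0 N ∩ pat O C) ≤
        wt (p : ℝ) O C * (R ^ A.card * Uu ^ F.card) := by
  intro n
  induction n using Nat.strong_induction_on with
  | _ n ih =>
  intro O C A
  suffices hk : ∀ (k : ℕ) (O C : Finset (Sym2 (W × U))) (F : Finset W) (Ks : W → Finset U),
      (bdry B A \ F).card = k →
      N - A.card = n → Ok (B □ H) O C → Disjoint A F →
      (∀ e ∈ O ∪ C, ∀ z ∈ e, z.1 ∈ A ∪ F) →
      (∀ w ∈ A, M ≤ (Ks w).card ∧
        ∀ a ∈ Ks w, (openGraph (B □ H) (O : Set (Sym2 (W × U)))).Reachable x0 (w, a)) →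
      setBer((B □ H).edgeSet, p).real (smallEv (B □ H) x0 N ∩ pat O C) ≤
        wt (p : ℝ) O C * (R ^ A.card * Uu ^ F.card) from
    fun F Ks => hk _ O C F Ks rfl
  clear O C
  intro k
  induction k using Nat.strong_induction_on with
  | _ k ihk =>
  intro O C F Ks hkc hn hok hdis hinv hK
  have hU : 0 ≤ Uu := hR.trans hRU
  have hpow : 0 ≤ R ^ A.card * Uu ^ F.card := mul_nonneg (pow_nonneg hR _) (pow_nonneg hU _)
  by_cases hN : N ≤ A.card
  · have hempty : smallEv (B □ H) x0 N ∩ pat O C = ∅ := by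
      rw [Set.eq_empty_iff_forall_notMem]
      rintro ω ⟨h1, h2, -⟩
      have hne : ∀ w ∈ A, (Ks w).Nonempty := fun w hw =>
        Finset.card_pos.1 (lt_of_lt_of_le hM (hK w hw).1)
      refine h1 ⟨A.attach.image (fun w => (w.1, (hne w.1 w.2).choose)), ?_, ?_⟩
      · rwa [Finset.card_image_of_injective _ (fun w w' h => Subtype.ext (Prod.mk.inj h).1),
          Finset.card_attach]
      · intro z hz
        obtain ⟨w, -, rfl⟩ := Finset.mem_image.1 hz
        exact ((hK w.1 w.2).2 _ (hne w.1 w.2).choose_spec).mono (openGraph_mono _ h2)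
    rw [hempty]
    simpa using mul_nonneg (wt_nonneg p O C) hpow
  by_cases hne : (bdry B A \ F).Nonempty
  · obtain ⟨w, hw⟩ := hne
    obtain ⟨hwb, hwF⟩ := Finset.mem_sdiff.1 hw
    obtain ⟨hwu, hwA⟩ := Finset.mem_sdiff.1 hwb
    obtain ⟨v, hv, hvw⟩ := Finset.mem_biUnion.1 hwu
    rw [SimpleGraph.mem_neighborFinset] at hvw
    obtain ⟨L, hL, hLc⟩ := Finset.exists_subset_card_eq (hK v hv).1
    have hwAF : w ∉ A ∪ F := by simp [hwA, hwF]
    have hvwS : ∀ z : W × U, z.1 ∈ ({v, w} : Finset W) → z.1 ∈ insert w (A ∪ F) := by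
      intro z hz
      rcases Finset.mem_insert.1 hz with h | h
      · exact Finset.mem_insert_of_mem (Finset.mem_union_left _ (h ▸ hv))
      · simp [Finset.mem_singleton.1 h]
    have hinv' : ∀ O' C', Confined {v, w} O C O' C' →
        ∀ e ∈ O' ∪ C', ∀ z ∈ e, z.1 ∈ insert w (A ∪ F) := by
      intro O' C' hc e he z hz
      rcases hc e (Finset.mem_union.1 he) with h | h | h
      · exact Finset.mem_insert_of_mem (hinv e (Finset.mem_union_left _ h) z hz)
      · exact Finset.mem_insert_of_mem (hinv e (Finset.mem_union_right _ h) z hz)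
      · exact hvwS z (h z hz)
    refine (cross p x0 (smallEv (B □ H) x0 N) M β r u (R ^ (A.card + 1) * Uu ^ F.card)
      (R ^ A.card * Uu ^ (F.card + 1)) hr hu hru hpr ?_ hexp hvw L O C ∅ hok
      (fun k _ h => hwAF (hinv _ h (w, k) (Sym2.mem_mk_right _ _)))
      (fun a b h => hwAF (hinv _ h (w, a) (Sym2.mem_mk_left _ _)))
      (Finset.disjoint_empty_left _) (fun k hk => (hK v hv).2 k (hL hk)) (by simp) ?_ ?_).trans
      (mul_le_mul_of_nonneg_left ?_ (wt_nonneg p O C))
    · rw [pow_succ, pow_succ]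
      nlinarith
    · intro O' C' A' h1 h2 _ h4 h5 h6
      have hc : (insert w A).card = A.card + 1 := Finset.card_insert_of_notMem hwA
      have := ih (N - (insert w A).card) (by omega) O' C' (insert w A) F
        (Function.update Ks w A') rfl h1
        (by rw [Finset.disjoint_insert_left]; exact ⟨hwF, hdis⟩)
        (fun e he z hz => by rw [Finset.insert_union]; exact hinv' O' C' h4 e he z hz)
        (fun x hx => by
          rcases Finset.mem_insert.1 hx with rfl | hx
          · simpa using ⟨h6, h5⟩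
          · have hxw : x ≠ w := fun h => hwA (h ▸ hx)
            rw [Function.update_of_ne hxw]
            exact ⟨(hK x hx).1, fun a ha => reach_mono h2 ((hK x hx).2 a ha)⟩)
      rwa [hc] at this
    · intro O' C' h1 h2 _ h4
      have := ihk (bdry B A \ insert w F).card (by
          rw [← hkc]
          refine Finset.card_lt_card ?_
          rw [Finset.sdiff_insert]
          exact Finset.erase_ssubset hw)
        O' C' (insert w F) Ks rfl hn h1
        (by rw [Finset.disjoint_insert_right]; exact ⟨hwA, hdis⟩)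
        (fun e he z hz => by rw [Finset.union_insert]; exact hinv' O' C' h4 e he z hz)
        (fun x hx => ⟨(hK x hx).1, fun a ha => reach_mono h2 ((hK x hx).2 a ha)⟩)
      rwa [Finset.card_insert_of_notMem hwF] at this
    · rw [hLc, Finset.card_empty, pow_zero, mul_one, pow_succ, pow_succ]
      nlinarith [mul_le_mul_of_nonneg_left hstep hpow]
  · refine (pat_le_wt p (B □ H) _ hok).trans (le_mul_of_one_le_right (wt_nonneg p O C) ?_)
    refine hdead _ _ ((hexpB A).trans (Nat.mul_le_mul_left _ (Finset.card_le_card ?_)))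
    intro x hx
    by_contra hxF
    exact hne ⟨x, Finset.mem_sdiff.2 ⟨hx, hxF⟩⟩

omit [B.LocallyFinite] in
/-- A connected open set of prescribed size inside one fibre. -/
lemma seed (w0 : W) (a0 : U) (M β : ℕ) (hβ : 1 ≤ β)
    (hexp : ∀ A : Finset U, A.card < M → β * A.card ≤ (cut H A).card) :
    ∀ m, 1 ≤ m → m ≤ M → ∃ (O : Finset (Sym2 (W × U))) (A : Finset U),
      Ok (B □ H) O ∅ ∧ A.card = m ∧ a0 ∈ A ∧ (∀ e ∈ O, ∀ z ∈ e, z.1 = w0) ∧
      (∀ a ∈ A, (openGraph (B □ H) (O : Set (Sym2 (W × U)))).Reachable (w0, a0) (w0, a)) ∧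
      (∀ a b, s((w0, a), (w0, b)) ∈ O → a ∈ A ∧ b ∈ A) := by
  intro m hm
  induction m, hm using Nat.le_induction with
  | base =>
    exact fun _ => ⟨∅, {a0}, ⟨by simp, by simp⟩, by simp, by simp, by simp, by simp, by simp⟩
  | succ m hm ih =>
    intro hmM
    obtain ⟨O, A, hok, hc, ha0, hz, hr, hin⟩ := ih (by omega)
    have hpos : 0 < (cut H A).card :=
      lt_of_lt_of_le (Nat.mul_pos hβ (by omega)) (hexp A (by omega))
    obtain ⟨⟨a, b⟩, hab⟩ := Finset.card_pos.1 hpos
    obtain ⟨ha, hb, hadj⟩ := mem_cut.1 hab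
    refine ⟨insert s((w0, a), (w0, b)) O, insert b A, hok.insO (fibre_edge hadj) ?_, ?_,
      Finset.mem_insert_of_mem ha0, ?_, ?_, ?_⟩
    · intro h
      exact hb (hin a b (by simpa using h)).2
    · rw [Finset.card_insert_of_notMem hb, hc]
    · intro e he z hze
      rcases Finset.mem_insert.1 he with rfl | he
      · rcases Sym2.mem_iff.1 hze with rfl | rfl <;> rfl
      · exact hz e he z hze
    · intro x hx
      rcases Finset.mem_insert.1 hx with rfl | hx
      · refine (reach_mono (Finset.subset_insert _ _) (hr a ha)).trans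
          (SimpleGraph.Adj.reachable ?_)
        rw [openGraph_adj]
        exact ⟨by simp [hadj], by simp⟩
      · exact reach_mono (Finset.subset_insert _ _) (hr x hx)
    · intro a' b' h
      rcases Finset.mem_insert.1 h with h | h
      · rcases Sym2.eq_iff.1 h with ⟨h1, h2⟩ | ⟨h1, h2⟩ <;>
          simp [(Prod.mk.inj h1).2, (Prod.mk.inj h2).2, ha]
      · exact ⟨Finset.mem_insert_of_mem (hin a' b' h).1, Finset.mem_insert_of_mem (hin a' b' h).2⟩

/-- The box product percolates with positive probability. -/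
theorem box_percolates (p : unitInterval) (hp : 0 < (p : ℝ)) (w0 : W) (a0 : U) (M β K : ℕ)
    (r u R Uu : ℝ) (hr : 0 ≤ r) (hu : 1 ≤ u) (hru : 1 ≤ r * u ^ β)
    (hpr : (p : ℝ) * r + (1 - (p : ℝ)) * u ≤ 1) (hR : 0 ≤ R) (hR1 : R < 1) (hRU : R ≤ Uu)
    (hM : 1 ≤ M) (hβ : 1 ≤ β)
    (hexp : ∀ A : Finset U, A.card < M → β * A.card ≤ (cut H A).card)
    (hdead : ∀ a f : ℕ, a ≤ K * f → 1 ≤ R ^ a * Uu ^ f)
    (hstep : R + ((p : ℝ) * r + (1 - (p : ℝ))) ^ M * (Uu - R) ≤ 1)
    (hexpB : ∀ A : Finset W, A.card ≤ K * (bdry B A).card) :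
    0 < setBer((B □ H).edgeSet, p) (percolates (B □ H)) := by
  obtain ⟨O, A, hok, hc, -, hz, hreach, -⟩ := seed (B := B) w0 a0 M β hβ hexp M hM le_rfl
  set μ := setBer((B □ H).edgeSet, p) with hμ
  have hN : ∀ N, μ.real (smallEv (B □ H) (w0, a0) N ∩ pat O ∅) ≤ wt (p : ℝ) O ∅ * R := by
    intro N
    refine (outer p (w0, a0) N M β K r u R Uu hr hu hru hpr hR hRU hM hexp hdead hstep hexpB
      _ O ∅ {w0} ∅ (fun _ => A) rfl hok (by simp) ?_ ?_).trans (le_of_eq (by simp))
    · intro e he z hze
      simp [hz e (by simpa using he) z hze]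
    · intro w hw
      rw [Finset.mem_singleton] at hw
      subst hw
      exact ⟨hc.ge, hreach⟩
  have hmono : Monotone (fun N => smallEv (B □ H) (w0, a0) N ∩ pat O ∅) := by
    intro m n hmn ω h
    exact ⟨fun ⟨S, h1, h2⟩ => h.1 ⟨S, hmn.trans h1, h2⟩, h.2⟩
  have hU : μ (⋃ N, smallEv (B □ H) (w0, a0) N ∩ pat O ∅) ≤
      ENNReal.ofReal (wt (p : ℝ) O ∅ * R) := by
    rw [hmono.measure_iUnion]
    refine iSup_le fun N => ?_
    rw [← ofReal_measureReal]
    exact ENNReal.ofReal_le_ofReal (hN N)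
  have hsub : pat O ∅ ⊆ percolates (B □ H) ∪ ⋃ N, smallEv (B □ H) (w0, a0) N ∩ pat O ∅ := by
    intro ω hω
    by_cases hinf : (cluster (B □ H) ω (w0, a0)).Infinite
    · exact Or.inl ⟨_, hinf⟩
    · right
      have hfin : (cluster (B □ H) ω (w0, a0)).Finite := Set.not_infinite.1 hinf
      refine Set.mem_iUnion.2 ⟨hfin.toFinset.card + 1, ?_, hω⟩
      rintro ⟨S, h1, h2⟩
      have : S ⊆ hfin.toFinset := fun z hz => hfin.mem_toFinset.2 (h2 z hz)
      have := Finset.card_le_card this
      omega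
  by_contra h0
  have h0' : μ (percolates (B □ H)) = 0 := not_lt.1 h0 |> le_bot_iff.1
  have hle : μ (pat O ∅) ≤ ENNReal.ofReal (wt (p : ℝ) O ∅ * R) := by
    refine ((measure_mono hsub).trans (measure_union_le _ _)).trans ?_
    rw [h0', zero_add]
    exact hU
  have h2 : wt (p : ℝ) O ∅ ≤ wt (p : ℝ) O ∅ * R := by
    have := ENNReal.toReal_mono ENNReal.ofReal_ne_top hle
    rw [ENNReal.toReal_ofReal (mul_nonneg (wt_nonneg p O ∅) hR)] at this
    rwa [← measureReal_def, hμ,
      measure_pat _ p hok.disj (fun e he => hok.sub e (by simpa using he))] at this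
  have hw : 0 < wt (p : ℝ) O (∅ : Finset (Sym2 (W × U))) := by
    rw [wt, Finset.card_empty, pow_zero, mul_one]
    positivity
  nlinarith

end P165
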