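import Vale.Agent.P165.Product

/-!
High-dimensional products of nonamenable graphs have a nonuniqueness phase.
-/

open MeasureTheory ProbabilityTheory SimpleGraph
open scoped ENNReal Classical

namespace P165

lemma bdry_eq {W : Type*} (H : SimpleGraph W) [H.LocallyFinite] (A : Finset W) :
    {b | b ∉ A ∧ ∃ a ∈ A, H.Adj a b} = ↑(bdry H A) := by
  ext b
  simp [bdry, and_comm]

lemma bdry_ncard {W : Type*} (H : SimpleGraph W) [H.LocallyFinite] (A : Finset W) :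
    {b | b ∉ A ∧ ∃ a ∈ A, H.Adj a b}.ncard = (bdry H A).card := by
  rw [bdry_eq, Set.ncard_coe_finset]

lemma sq_le_two_pow : ∀ k : ℕ, k ^ 2 ≤ 4 * 2 ^ k
  | 0 => by simp
  | 1 => by simp
  | 2 => by simp
  | k + 3 => by
    have := sq_le_two_pow (k + 2)
    rw [pow_succ 2 (k + 2)]
    have h4 : 4 ≤ 2 ^ (k + 2) := le_trans (by norm_num)
      (Nat.pow_le_pow_right two_pos (Nat.le_add_left 2 k))
    nlinarith

/-- The numerical choices. -/
lemma params (D : ℕ) (θ c a ρ T : ℝ) (hθ : 0 < θ) (ha : 0 < a) (hρ : ρ < 1) (hT : 0 < T) :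
    ∃ N0 : ℕ, 2 ≤ N0 ∧ c ≤ θ * N0 ∧ ∀ N : ℕ, N0 ≤ N → ∀ S : ℝ, θ * N ≤ S → S ≤ D * N →
      ∃ k : ℕ, (D : ℝ) + 2 * D * k ≤ (1 - ρ) * S ∧ T * S ≤ a * (2 : ℝ) ^ k := by
  set ε := (1 - ρ) * θ / (4 * ((D : ℝ) + 1)) with hε
  have hε0 : 0 < ε := div_pos (mul_pos (by linarith) hθ) (by positivity)
  obtain ⟨N0, hN0⟩ := exists_nat_ge
    (max (max (2 : ℝ) (c / θ)) (max (2 * D / ((1 - ρ) * θ)) (max (2 / ε) (16 * T * D / (a * ε ^ 2)))))
  simp only [max_le_iff] at hN0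
  obtain ⟨⟨h2, hc⟩, hD2, hε2, hT2⟩ := hN0
  rw [div_le_iff₀ hθ, mul_comm] at hc
  refine ⟨N0, by exact_mod_cast h2, hc, fun N hN S hS hSD => ⟨⌊ε * N⌋₊, ?_, ?_⟩⟩
  · have hN' : (N0 : ℝ) ≤ N := by exact_mod_cast hN
    have hk : (⌊ε * N⌋₊ : ℝ) ≤ ε * N := Nat.floor_le (by positivity)
    have h1 : 2 * (D : ℝ) * ⌊ε * N⌋₊ ≤ 2 * D * (ε * N) :=
      mul_le_mul_of_nonneg_left hk (by positivity)
    have h3 : 2 * (D : ℝ) * (ε * N) ≤ (1 - ρ) * θ * N / 2 := by
      rw [hε, show 2 * (D : ℝ) * ((1 - ρ) * θ / (4 * ((D : ℝ) + 1)) * N) =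
        (1 - ρ) * θ * N / 2 * ((D : ℝ) / ((D : ℝ) + 1)) by field_simp; ring]
      have h0 : 0 ≤ (1 - ρ) * θ * N :=
        mul_nonneg (mul_nonneg (by linarith) hθ.le) (Nat.cast_nonneg _)
      refine mul_le_of_le_one_right (by linarith) ?_
      rw [div_le_one (by positivity)]
      linarith
    rw [div_le_iff₀ (mul_pos (by linarith) hθ)] at hD2
    have h4 : (1 - ρ) * (θ * N) ≤ (1 - ρ) * S := mul_le_mul_of_nonneg_left hS (by linarith)
    have h5 : (N0 : ℝ) * ((1 - ρ) * θ) ≤ N * ((1 - ρ) * θ) :=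
      mul_le_mul_of_nonneg_right hN' (mul_nonneg (by linarith) hθ.le)
    linarith
  · have hN' : (N0 : ℝ) ≤ N := by exact_mod_cast hN
    set k := ⌊ε * N⌋₊ with hk
    have h1 : ε * N / 2 ≤ (k : ℝ) := by
      have := Nat.lt_floor_add_one (ε * N)
      rw [div_le_iff₀ hε0] at hε2
      rw [← hk] at this
      nlinarith
    have h2k : ((k : ℝ)) ^ 2 ≤ 4 * (2 : ℝ) ^ k := by exact_mod_cast sq_le_two_pow k
    have h4 : (ε * N / 2) ^ 2 ≤ (k : ℝ) ^ 2 := pow_le_pow_left₀ (by positivity) h1 2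
    rw [div_le_iff₀ (by positivity)] at hT2
    have h5 : 16 * T * D * N ≤ a * ε ^ 2 * N * N := by
      refine le_trans (mul_le_mul_of_nonneg_right hT2 (Nat.cast_nonneg N)) ?_
      have : 0 ≤ a * ε ^ 2 * N := by positivity
      nlinarith [mul_le_mul_of_nonneg_left hN' this]
    nlinarith [mul_le_mul_of_nonneg_left hSD hT.le,
      mul_le_mul_of_nonneg_left (h4.trans h2k) ha.le]

/-- The exploration inequalities for the chosen parameters. -/
lemma percolation_consts {c' S a r ρ : ℝ} {β k K : ℕ} (hc'1 : 1 < c') (hS0 : 0 < S)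
    (hpS : c' ≤ S) (hρ : ρ = (1 + 1 / c') / 2) (hr : r = 2 / (c' + 1)) (ha : a = c' * (1 - r))
    (hr0 : 0 < r) (ha0 : 0 < a) (hβr : ρ * S ≤ (β : ℝ))
    (hk2 : (2 : ℝ) ^ (K + 1) * S ≤ a * (2 : ℝ) ^ k) :
    ∃ p : unitInterval, (p : ℝ) = c' / S ∧ 0 < (p : ℝ) ∧ ∃ u : ℝ, 1 ≤ u ∧ 1 ≤ r * u ^ β ∧
      (p : ℝ) * r + (1 - (p : ℝ)) * u ≤ 1 ∧
      1 / 2 + ((p : ℝ) * r + (1 - (p : ℝ))) ^ (2 ^ k) * ((2 : ℝ) ^ K - 1 / 2) ≤ 1 := by
  set p : unitInterval := ⟨c' / S, div_nonneg (by linarith) hS0.le,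
    (div_le_one hS0).2 hpS⟩ with hp
  have hp0 : 0 < (p : ℝ) := div_pos (by linarith) hS0
  set u := 1 + a / S with hu
  have hu1 : 1 ≤ u := by rw [hu]; linarith [div_pos ha0 hS0]
  have hru : 1 ≤ r * u ^ β := by
    have h1 : 1 + (β : ℝ) * (a / S) ≤ u ^ β :=
      one_add_mul_le_pow (by linarith [div_pos ha0 hS0]) β
    have h2 : ρ * a ≤ (β : ℝ) * (a / S) := by
      rw [mul_div_assoc', le_div_iff₀ hS0]
      nlinarith
    have h3 : r * (1 + ρ * a) = 1 := by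
      rw [hr, ha, hρ, hr]
      field_simp
      ring
    calc (1 : ℝ) = r * (1 + ρ * a) := h3.symm
      _ ≤ r * u ^ β := mul_le_mul_of_nonneg_left (by linarith) hr0.le
  have hpval : (p : ℝ) * (1 - r) = a / S := by
    change c' / S * (1 - r) = a / S
    rw [ha]; ring
  have hpr : (p : ℝ) * r + (1 - (p : ℝ)) * u ≤ 1 := by
    rw [hu]
    nlinarith [mul_nonneg hp0.le (div_pos ha0 hS0).le]
  set q := (p : ℝ) * r + (1 - (p : ℝ)) with hq
  have hq0 : 0 ≤ q := add_nonneg (mul_nonneg hp0.le hr0.le) (by linarith [p.2.2])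
  have hqM : q ^ (2 ^ k) * (2 : ℝ) ^ (K + 1) ≤ 1 := by
    have hqe : q ≤ Real.exp (-(a / S)) := by
      have := Real.add_one_le_exp (-(a / S))
      rw [hq]; linarith
    have h1 : q ^ (2 ^ k) ≤ Real.exp (-(a / S)) ^ (2 ^ k) := pow_le_pow_left₀ hq0 hqe _
    rw [← Real.exp_nat_mul] at h1
    have h2 : (2 : ℝ) ^ (K + 1) ≤ Real.exp (((2 ^ k : ℕ) : ℝ) * (a / S)) := by
      refine le_trans ?_ ((le_add_of_nonneg_right zero_le_one).trans (Real.add_one_le_exp _))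
      rw [mul_div_assoc', le_div_iff₀ hS0]
      push_cast
      linarith
    calc q ^ (2 ^ k) * (2 : ℝ) ^ (K + 1)
        ≤ Real.exp (((2 ^ k : ℕ) : ℝ) * -(a / S)) * Real.exp (((2 ^ k : ℕ) : ℝ) * (a / S)) :=
          mul_le_mul h1 h2 (by positivity) (Real.exp_pos _).le
      _ = 1 := by rw [← Real.exp_add]; simp
  refine ⟨p, rfl, hp0, u, hu1, hru, hpr, ?_⟩
  have h0 : (0 : ℝ) ≤ q ^ (2 ^ k) := pow_nonneg hq0 _
  rw [pow_succ] at hqM
  nlinarith

/-- Spectral gap arithmetic. -/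
lemma sqrt_gap {D η S δ η₁ N : ℝ} (hD0 : 0 < D) (hη : 0 ≤ η) (hS : 0 ≤ S)
    (hδ : δ = η ^ 2 / (2 * D ^ 2)) (hδ1 : δ ≤ 1) (hη₁ : η₁ = N * η) (hSD : S ≤ D * N) :
    Real.sqrt (S ^ 2 - η₁ ^ 2) ≤ S * (1 - δ) := by
  rw [Real.sqrt_le_iff]
  refine ⟨mul_nonneg hS (by linarith), ?_⟩
  have h1 : 2 * δ * S ^ 2 ≤ η₁ ^ 2 := by
    rw [hδ, hη₁, show 2 * (η ^ 2 / (2 * D ^ 2)) * S ^ 2 = η ^ 2 * (S / D) ^ 2 by field_simp,
      mul_pow, mul_comm _ (η ^ 2)]
    refine mul_le_mul_of_nonneg_left (pow_le_pow_left₀ (by positivity) ?_ 2) (sq_nonneg _)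
    rw [div_le_iff₀ hD0]
    linarith
  nlinarith [sq_nonneg (S * δ)]

/-- Nonamenability and the uniqueness bound from edge expansion. -/
lemma spectral_part {W : Type*} (H : SimpleGraph W) [H.LocallyFinite] (hc : H.Connected)
    (hqt : QuasiTransitive H) {S : ℕ} (hdeg : ∀ x, H.degree x = S) {η₁ δ : ℝ} (hη₁ : 0 < η₁)
    (hη₁S : η₁ ≤ (S : ℝ)) (hS0 : (0 : ℝ) < S) (hδ1 : δ < 1)
    (hsq : Real.sqrt ((S : ℝ) ^ 2 - η₁ ^ 2) ≤ (S : ℝ) * (1 - δ))
    (hcut : ∀ A : Finset W, η₁ * A.card ≤ (cut H A).card) :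
    (∀ A : Finset W, η₁ / S * A.card ≤ {b | b ∉ A ∧ ∃ a ∈ A, H.Adj a b}.ncard) ∧
      ((S : ℝ) * (1 - δ))⁻¹ ≤ pu H := by
  have hexpP : ∀ A : Finset W,
      η₁ / S * A.card ≤ {b | b ∉ A ∧ ∃ a ∈ A, H.Adj a b}.ncard := by
    intro A
    rw [bdry_ncard, div_mul_eq_mul_div, div_le_iff₀ hS0]
    have h1 := hcut A
    have h2 : ((cut H A).card : ℝ) ≤ (S : ℝ) * (bdry H A).card := by
      exact_mod_cast cut_le_bdry H hdeg A
    linarith
  have hne : Nonempty W := hc.nonempty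
  have : Infinite W := by
    by_contra hfin
    rw [not_infinite_iff_finite] at hfin
    have := Fintype.ofFinite W
    have hb : bdry H (Finset.univ : Finset W) = ∅ := by simp [bdry]
    have := hexpP Finset.univ
    rw [bdry_ncard, hb, Finset.card_empty, Nat.cast_zero] at this
    have hpos : (0 : ℝ) < η₁ / S * (Finset.univ : Finset W).card :=
      mul_pos (div_pos hη₁ hS0) (by exact_mod_cast Finset.card_pos.2 Finset.univ_nonempty)
    linarith
  refine ⟨hexpP, inv_le_pu H hc hqt (mul_pos hS0 (by linarith)) fun U f => ?_⟩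
  exact (quad_bound H hdeg hη₁.le hη₁S hcut U f).trans
    (mul_le_mul_of_nonneg_right hsq (Finset.sum_nonneg fun x _ => sq_nonneg _))

lemma gap_arith {S δ c' : ℝ} (hS0 : 0 < S) (hδ0 : 0 < δ) (hδ1 : δ < 1) (hc : c' ≤ 1 + δ) :
    c' / S < (S * (1 - δ))⁻¹ := by
  rw [inv_eq_one_div, lt_div_iff₀ (mul_pos hS0 (by linarith)), ← mul_assoc,
    div_mul_cancel₀ _ hS0.ne']
  nlinarith

/-- A product of many nonamenable regular graphs has `pc < pu`. -/
theorem product_pc_lt_pu (D : ℕ) (θ η c : ℝ) (hθ : 0 < θ) (hη : 0 < η) (hc : 1 < c) :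
    ∃ n0 : ℕ, ∀ n, n0 ≤ n → ∀ (V : Fin n → Type) (G : ∀ i, SimpleGraph (V i)) (d : Fin n → ℕ)
        (I : Finset (Fin n)),
      (∀ i, (G i).Connected) → (∀ i, QuasiTransitive (G i)) →
      (∀ i a, ((G i).neighborSet a).Finite ∧ ((G i).neighborSet a).ncard = d i) →
      (∀ i, d i ≤ D) → θ * n ≤ I.card →
      (∀ i ∈ I, ∀ A : Finset (V i),
        η * A.card ≤ {b | b ∉ A ∧ ∃ a ∈ A, (G i).Adj a b}.ncard) →
      (piProd G).Connected ∧ QuasiTransitive (piProd G) ∧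
      (∀ x, ((piProd G).neighborSet x).Finite) ∧
      (∃ η' : ℝ, 0 < η' ∧ ∀ A : Finset (∀ i, V i),
        η' * A.card ≤ {b | b ∉ A ∧ ∃ a ∈ A, (piProd G).Adj a b}.ncard) ∧
      pc (piProd G) < pu (piProd G) ∧ pc (piProd G) * ((∑ i, d i : ℕ) : ℝ) ≤ c := by
  set θ' := min θ 1 with hθ'
  have hθ'0 : 0 < θ' := lt_min hθ one_pos
  set e := min η 1 with he
  have he0 : 0 < e := lt_min hη one_pos
  set D' : ℝ := (D : ℝ) + 1 with hD'
  have hD0 : 0 < D' := by positivity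
  set g := θ' * e with hg
  have hg0 : 0 < g := mul_pos hθ'0 he0
  have hg1 : g ≤ 1 := mul_le_one₀ (min_le_right _ _) he0.le (min_le_right _ _)
  set δ := g ^ 2 / (2 * D' ^ 2) with hδ
  have hδ0 : 0 < δ := by positivity
  have hδ1 : δ < 1 := by
    rw [hδ, div_lt_one (by positivity)]
    have : (1 : ℝ) ≤ D' := by rw [hD']; linarith [Nat.cast_nonneg (α := ℝ) D]
    nlinarith
  set c' := min c (1 + δ) with hc'
  have hc'1 : 1 < c' := lt_min hc (by linarith)
  set ρ := (1 + 1 / c') / 2 with hρ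
  set r := 2 / (c' + 1) with hr
  have hr0 : 0 < r := div_pos two_pos (by linarith)
  have hr1 : r < 1 := by rw [hr, div_lt_one (by linarith)]; linarith
  have hρ1 : ρ < 1 := by
    have : 1 / c' < 1 := by rw [div_lt_one (by linarith)]; exact hc'1
    rw [hρ]; linarith
  have hρ0 : 0 < ρ := by positivity
  set a := c' * (1 - r) with ha
  have ha0 : 0 < a := mul_pos (by linarith) (by linarith)
  set K := ⌈1 / e⌉₊ with hK
  obtain ⟨N0, hN2, hNc, hN0⟩ := params D θ' c' a ρ ((2 : ℝ) ^ (K + 1)) hθ'0 ha0 hρ1 (by positivity)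
  refine ⟨N0, fun n hn V G d I hconn hqt hreg hD hI hexp => ?_⟩
  obtain ⟨m, rfl⟩ : ∃ m, n = m + 1 := ⟨n - 1, by omega⟩
  letI : ∀ i, (G i).LocallyFinite := fun i x => ((hreg i x).1).fintype
  letI : (piProd G).LocallyFinite := fun x =>
    (piProd_finite G (fun i a => (hreg i a).1) x).fintype
  obtain ⟨i0, hi0⟩ : I.Nonempty := by
    rw [← Finset.card_pos, ← Nat.cast_pos (α := ℝ)]
    exact lt_of_lt_of_le (by positivity) hI
  set Gt : ∀ i : Fin m, SimpleGraph (V (i0.succAbove i)) := fun i => G (i0.succAbove i) with hGt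
  letI : ∀ i, (Gt i).LocallyFinite := fun i =>
    inferInstanceAs ((G (i0.succAbove i)).LocallyFinite)
  letI : (piProd Gt).LocallyFinite := fun x =>
    (piProd_finite Gt (fun i a => (hreg (i0.succAbove i) a).1) x).fintype
  have hdeg : ∀ i x, (G i).degree x = d i := fun i x => by
    rw [← SimpleGraph.card_neighborFinset_eq_degree, ← Set.ncard_coe_finset,
      SimpleGraph.coe_neighborFinset, (hreg i x).2]
  have hexp' : ∀ i ∈ I, ∀ A : Finset (V i), e * A.card ≤ (bdry (G i) A).card := fun i hi A => by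
    have := hexp i hi A
    rw [bdry_ncard] at this
    exact le_trans (mul_le_mul_of_nonneg_right (min_le_left _ _) (Nat.cast_nonneg _)) this
  set w : Fin (m + 1) → ℝ := fun i => if i ∈ I then e else 0 with hw
  have hexpc : ∀ i (A : Finset (V i)), w i * A.card ≤ (cut (G i) A).card := fun i A => by
    by_cases hi : i ∈ I
    · rw [hw]
      simp only [if_pos hi]
      exact (hexp' i hi A).trans (by exact_mod_cast bdry_le_cut (G i) A)
    · simp [hw, hi]
  have hne : ∀ i, Nonempty (V i) := fun i => (hconn i).nonempty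
  have hd1 : ∀ i ∈ I, 1 ≤ d i := by
    intro i hi
    obtain ⟨x⟩ := hne i
    have h1 := hexpc i {x}
    have h2 := cut_add_inner (G i) (hdeg i) {x}
    simp only [hw, if_pos hi, Finset.card_singleton, mul_one, Nat.cast_one] at h1 h2
    by_contra h0
    have h3 : (cut (G i) {x}).card = 0 := by omega
    rw [h3] at h1
    simp at h1
    linarith
  have hIc : θ' * ((m + 1 : ℕ) : ℝ) ≤ I.card :=
    le_trans (mul_le_mul_of_nonneg_right (min_le_left _ _) (Nat.cast_nonneg _)) hI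
  set S := ∑ i, d i with hS
  have hSN : θ' * ((m + 1 : ℕ) : ℝ) ≤ (S : ℝ) := by
    have : I.card ≤ S := by
      rw [Finset.card_eq_sum_ones]
      exact (Finset.sum_le_sum hd1).trans (Finset.sum_le_sum_of_subset (Finset.subset_univ _))
    exact hIc.trans (by exact_mod_cast this)
  have hSD : (S : ℝ) ≤ D * ((m + 1 : ℕ) : ℝ) := by
    have : S ≤ ∑ _i : Fin (m + 1), D := Finset.sum_le_sum fun i _ => hD i
    simp at this
    have h' : (S : ℝ) ≤ ((m + 1) * D : ℕ) := by exact_mod_cast this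
    push_cast at h' ⊢
    linarith
  obtain ⟨k, hk1, hk2⟩ := hN0 (m + 1) hn (S : ℝ) hSN hSD
  have hm0 : (0 : ℝ) < ((m + 1 : ℕ) : ℝ) := by positivity
  have hS0 : (0 : ℝ) < S := (mul_pos hθ'0 hm0).trans_le hSN
  set S' := ∑ i : Fin m, d (i0.succAbove i) with hS'
  have hSsplit : S = d i0 + S' := Fin.sum_univ_succAbove d i0
  set β := S' - 2 * D * k with hβ
  have hS'k : ρ * S + 2 * D * k ≤ (S' : ℝ) := by
    have h0 : (d i0 : ℝ) ≤ D := by exact_mod_cast hD i0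
    have : (S : ℝ) = d i0 + S' := by exact_mod_cast hSsplit
    nlinarith
  have hsub : 2 * D * k ≤ S' := by
    have : ((2 * D * k : ℕ) : ℝ) ≤ S' := by push_cast; nlinarith
    exact_mod_cast this
  have hβr : ρ * S ≤ (β : ℝ) := by
    rw [hβ, Nat.cast_sub hsub]
    push_cast
    linarith
  have hβ1 : 1 ≤ β := by
    have : (0 : ℝ) < β := lt_of_lt_of_le (by positivity) hβr
    exact_mod_cast this
  -- the parameter
  have hpS : c' ≤ S := by
    refine hNc.trans (le_trans (mul_le_mul_of_nonneg_left ?_ hθ'0.le) hSN)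
    exact_mod_cast hn
  obtain ⟨p, hpval, hp0, u, hu1, hru, hpr, hstep⟩ :=
    percolation_consts hc'1 hS0 hpS hρ hr ha hr0 ha0 hβr hk2
  set R : ℝ := 1 / 2 with hR
  set U : ℝ := (2 : ℝ) ^ K with hU
  have hU1 : 1 ≤ U := one_le_pow₀ (by norm_num)
  have hexpU : ∀ A : Finset (∀ i : Fin m, V (i0.succAbove i)), A.card < 2 ^ k →
      β * A.card ≤ (cut (piProd Gt) A).card := by
    intro A hA
    have h1 := cut_add_inner (piProd Gt) (d := S')
      (degree_piProd Gt (fun i : Fin m => d (i0.succAbove i))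
        (fun i x => hdeg (i0.succAbove i) x)) A
    have h2 := inner_le Gt (D := D) (fun i x => (hdeg (i0.succAbove i) x).trans_le (hD (i0.succAbove i))) _ A k rfl
      hA.le
    rw [hβ, Nat.sub_mul]
    omega
  have hexpB : ∀ A : Finset (V i0), A.card ≤ K * (bdry (G i0) A).card := by
    intro A
    have h1 := hexp' i0 hi0 A
    have h2 : 1 / e ≤ (K : ℝ) := Nat.le_ceil _
    rw [div_le_iff₀ he0] at h2
    have h3 : (A.card : ℝ) ≤ (K : ℝ) * (bdry (G i0) A).card :=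
      calc (A.card : ℝ) ≤ K * e * A.card := le_mul_of_one_le_left (Nat.cast_nonneg _) h2
        _ = K * (e * A.card) := by ring
        _ ≤ _ := mul_le_mul_of_nonneg_left h1 (Nat.cast_nonneg _)
    exact_mod_cast h3
  have hdead : ∀ a' f : ℕ, a' ≤ K * f → 1 ≤ R ^ a' * U ^ f := by
    intro a' f h
    rw [hR, hU, ← pow_mul, one_div, inv_pow, ← div_eq_inv_mul, le_div_iff₀ (by positivity), one_mul]
    exact pow_le_pow_right₀ (by norm_num) h
  have hperc := box_percolates (B := G i0) (H := piProd Gt) p hp0 (Classical.arbitrary (V i0))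
    (fun i => Classical.arbitrary (V (i0.succAbove i))) (2 ^ k) β K r u R U hr0.le hu1 hru hpr
    (by norm_num [hR]) (by norm_num [hR]) (by rw [hR]; linarith) Nat.one_le_two_pow hβ1 hexpU
    hdead hstep hexpB
  have hcconn := connected_piProd G hconn
  have := countable_of_connected (piProd G) hcconn
  have hpc : pc (piProd G) ≤ (p : ℝ) := pc_le _ (percolates_iso (splitAt G i0) p hperc)
  have hqtP := quasiTransitive_piProd G hqt
  have hdegP := degree_piProd G d hdeg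
  set η₁ := ((m + 1 : ℕ) : ℝ) * g with hη₁
  have hη₁0 : 0 < η₁ := mul_pos hm0 hg0
  have hcutP : ∀ A : Finset (∀ i, V i), η₁ * A.card ≤ (cut (piProd G) A).card := by
    intro A
    refine le_trans (mul_le_mul_of_nonneg_right ?_ (Nat.cast_nonneg _)) (cut_piProd G hexpc A)
    rw [hw, Finset.sum_ite_mem, Finset.univ_inter, Finset.sum_const, nsmul_eq_mul, hη₁, hg]
    have := mul_le_mul_of_nonneg_right hIc he0.le
    linarith
  have hη₁S : η₁ ≤ (S : ℝ) := by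
    refine le_trans ?_ hSN
    rw [hη₁, hg, mul_comm, mul_assoc]
    refine mul_le_mul_of_nonneg_left ?_ hθ'0.le
    exact mul_le_of_le_one_left hm0.le (min_le_right _ _)
  have hsq : Real.sqrt ((S : ℝ) ^ 2 - η₁ ^ 2) ≤ (S : ℝ) * (1 - δ) :=
    sqrt_gap hD0 hg0.le hS0.le hδ hδ1.le hη₁
      (hSD.trans (mul_le_mul_of_nonneg_right (by rw [hD']; linarith) hm0.le))
  obtain ⟨hexpP, hpu⟩ := spectral_part (piProd G) hcconn hqtP hdegP hη₁0 hη₁S hS0 hδ1 hsq hcutP
  refine ⟨hcconn, hqtP, fun x => piProd_finite G (fun i a => (hreg i a).1) x,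
    ⟨_, div_pos hη₁0 hS0, hexpP⟩, ?_, ?_⟩
  · exact (hpc.trans_eq hpval).trans_lt
      ((gap_arith hS0 hδ0 hδ1 (min_le_right c (1 + δ))).trans_le hpu)
  · calc pc (piProd G) * (S : ℝ) ≤ c' / S * S :=
        mul_le_mul_of_nonneg_right (hpc.trans_eq hpval) hS0.le
      _ = c' := div_mul_cancel₀ _ hS0.ne'
      _ ≤ c := min_le_left _ _

end P165
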