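import Vale.Agent.P165.Uniqueness

/-!
Cartesian products of many nonamenable regular graphs.
-/

open MeasureTheory ProbabilityTheory SimpleGraph
open scoped ENNReal Classical

namespace P165

variable {ι : Type*} [Fintype ι] {V : ι → Type*}

/-- The Cartesian product of a finite family of graphs. -/
def piProd (G : ∀ i, SimpleGraph (V i)) : SimpleGraph (∀ i, V i) where
  Adj x y := ∃ i, (G i).Adj (x i) (y i) ∧ ∀ j, j ≠ i → x j = y j
  symm := ⟨fun x y ⟨i, h1, h2⟩ => ⟨i, h1.symm, fun j hj => (h2 j hj).symm⟩⟩
  loopless := ⟨fun x ⟨i, h1, _⟩ => h1.ne rfl⟩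

variable (G : ∀ i, SimpleGraph (V i))

lemma piProd_adj_update {x : ∀ i, V i} {i : ι} {a : V i} (h : (G i).Adj (x i) a) :
    (piProd G).Adj x (Function.update x i a) :=
  ⟨i, by simpa using h, fun j hj => (Function.update_of_ne hj _ _).symm⟩

lemma piProd_finite (hfin : ∀ i a, ((G i).neighborSet a).Finite) (x : ∀ i, V i) :
    ((piProd G).neighborSet x).Finite := by
  refine Set.Finite.subset (Set.finite_iUnion fun i => (hfin i (x i)).image (Function.update x i)) ?_
  rintro y ⟨i, h1, h2⟩
  refine Set.mem_iUnion.2 ⟨i, y i, h1, ?_⟩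
  funext j
  by_cases hj : j = i
  · subst hj; simp
  · simp [hj, h2 j hj]

variable [∀ i, (G i).LocallyFinite] [(piProd G).LocallyFinite]

/-- Neighbours in direction `i`. -/
noncomputable def dirNbr (x : ∀ i, V i) (i : ι) : Finset (∀ i, V i) :=
  ((G i).neighborFinset (x i)).image (Function.update x i)

lemma nbr_eq (x : ∀ i, V i) :
    (piProd G).neighborFinset x = Finset.univ.biUnion (dirNbr G x) := by
  ext y
  simp only [SimpleGraph.mem_neighborFinset, Finset.mem_biUnion, Finset.mem_univ, true_and,
    dirNbr, Finset.mem_image]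
  constructor
  · rintro ⟨i, h1, h2⟩
    refine ⟨i, y i, h1, ?_⟩
    funext j
    by_cases hj : j = i
    · subst hj; simp
    · simp [hj, h2 j hj]
  · rintro ⟨i, a, ha, rfl⟩
    exact piProd_adj_update G ha

lemma dir_disjoint (x : ∀ i, V i) :
    ((Finset.univ : Finset ι) : Set ι).PairwiseDisjoint (dirNbr G x) := by
  intro i _ j _ hij
  simp only [Function.onFun, Finset.disjoint_left, dirNbr, Finset.mem_image,
    SimpleGraph.mem_neighborFinset]
  rintro _ ⟨a, ha, rfl⟩ ⟨b, hb, h⟩
  have := congrFun h i
  rw [Function.update_of_ne hij, Function.update_self] at this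
  exact ha.ne this

lemma degree_piProd (d : ι → ℕ) (hd : ∀ i a, (G i).degree a = d i) (x : ∀ i, V i) :
    (piProd G).degree x = ∑ i, d i := by
  rw [← SimpleGraph.card_neighborFinset_eq_degree, nbr_eq, Finset.card_biUnion (dir_disjoint G x)]
  refine Finset.sum_congr rfl fun i _ => ?_
  rw [dirNbr, Finset.card_image_of_injective _ (Function.update_injective x i),
    SimpleGraph.card_neighborFinset_eq_degree, hd]

/-- Ordered adjacent pairs inside a set. -/
noncomputable def inner2 {W : Type*} (H : SimpleGraph W) (A : Finset W) : Finset (W × W) :=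
  (A ×ˢ A).filter fun q => H.Adj q.1 q.2

lemma cut_add_inner {W : Type*} (H : SimpleGraph W) [H.LocallyFinite] {d : ℕ}
    (hd : ∀ x, H.degree x = d) (A : Finset W) :
    (cut H A).card + (inner2 H A).card = d * A.card := by
  have : (inner2 H A).card = ∑ x ∈ A, ((H.neighborFinset x).filter (· ∈ A)).card := by
    rw [inner2, Finset.card_filter, Finset.sum_product]
    refine Finset.sum_congr rfl fun x _ => ?_
    rw [← Finset.card_filter]
    congr 1
    ext y
    simp [and_comm]
  rw [cut_card, this, ← Finset.sum_add_distrib, mul_comm, ← smul_eq_mul, ← Finset.sum_const]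
  refine Finset.sum_congr rfl fun x _ => ?_
  rw [add_comm, Finset.card_filter_add_card_filter_not, SimpleGraph.card_neighborFinset_eq_degree,
    hd]

/-- Small sets span few edges. -/
lemma inner_le {D : ℕ} (hD : ∀ i a, (G i).degree a ≤ D) :
    ∀ (n : ℕ) (A : Finset (∀ i, V i)) (k : ℕ), A.card = n → A.card ≤ 2 ^ k →
      (inner2 (piProd G) A).card ≤ 2 * D * k * A.card := by
  intro n
  induction n using Nat.strong_induction_on with
  | _ n ih =>
  intro A k hn hk
  by_cases h1 : A.card ≤ 1
  · have : inner2 (piProd G) A = ∅ := by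
      rw [Finset.eq_empty_iff_forall_notMem]
      rintro ⟨x, y⟩ h
      simp only [inner2, Finset.mem_filter, Finset.mem_product] at h
      exact h.2.ne (Finset.card_le_one.1 h1 x h.1.1 y h.1.2)
    simp [this]
  obtain ⟨x, hx, y, hy, hxy⟩ := Finset.one_lt_card.1 (not_le.1 h1)
  obtain ⟨i, hi⟩ := Function.ne_iff.1 hxy
  obtain ⟨j, rfl⟩ : ∃ j, k = j + 1 := by
    rcases k with - | j
    · simp at hk; omega
    · exact ⟨j, rfl⟩
  set vals := A.image (fun z => z i) with hvals
  set part : V i → Finset (∀ i, V i) := fun v => A.filter (fun z => z i = v) with hpart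
  obtain ⟨b, hb, hmax⟩ := vals.exists_max_image (fun v => (part v).card)
    ⟨x i, Finset.mem_image_of_mem _ hx⟩
  have hsum : ∑ v ∈ vals, (part v).card = A.card :=
    (Finset.card_eq_sum_card_image (fun z : ∀ i, V i => z i) A).symm
  have hlt : ∀ v, (part v).card < n := by
    intro v
    rw [← hn]
    refine Finset.card_lt_card (Finset.filter_ssubset.2 ?_)
    by_cases hv : x i = v
    · exact ⟨y, hy, fun h => hi (hv.trans h.symm)⟩
    · exact ⟨x, hx, hv⟩
  set same := (inner2 (piProd G) A).filter (fun q => q.1 i = q.2 i) with hsame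
  set diff := (inner2 (piProd G) A).filter (fun q => ¬ q.1 i = q.2 i) with hdiff
  have hsplit : (inner2 (piProd G) A).card = same.card + diff.card :=
    (Finset.card_filter_add_card_filter_not _).symm
  have hsame' : same.card ≤ ∑ v ∈ vals, (inner2 (piProd G) (part v)).card := by
    refine le_trans (Finset.card_le_card ?_) Finset.card_biUnion_le
    rintro ⟨a, c⟩ h
    simp only [hsame, inner2, hpart, hvals, Finset.mem_filter, Finset.mem_product,
      Finset.mem_biUnion, Finset.mem_image] at h ⊢
    exact ⟨a i, ⟨a, h.1.1.1, rfl⟩, ⟨⟨h.1.1.1, rfl⟩, h.1.1.2, h.2.symm⟩, h.1.2⟩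
  have hdir : ∀ a c : ∀ i, V i, (piProd G).Adj a c → ¬ a i = c i → c ∈ dirNbr G a i := by
    rintro a c ⟨l, hl1, hl2⟩ hne
    have hli : i = l := by
      by_contra h
      exact hne (hl2 i h)
    subst hli
    simp only [dirNbr, Finset.mem_image, SimpleGraph.mem_neighborFinset]
    refine ⟨c i, hl1, ?_⟩
    funext m
    by_cases hm : m = i
    · subst hm; simp
    · simp [hm, hl2 m hm]
  have hdirc : ∀ a : ∀ i, V i, (dirNbr G a i).card ≤ D := fun a =>
    Finset.card_image_le.trans ((SimpleGraph.card_neighborFinset_eq_degree _ _).le.trans (hD i _))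
  set out := A.filter (fun z => ¬ z i = b) with hout
  have hdiff' : diff.card ≤ 2 * (D * out.card) := by
    set T := out.biUnion (fun a => (dirNbr G a i).image (fun c => (a, c))) with hT
    have hTc : T.card ≤ D * out.card := by
      refine Finset.card_biUnion_le.trans ?_
      rw [mul_comm, ← smul_eq_mul, ← Finset.sum_const]
      exact Finset.sum_le_sum fun a _ => Finset.card_image_le.trans (hdirc a)
    have hsub : diff ⊆ T ∪ T.image Prod.swap := by
      rintro ⟨a, c⟩ h
      simp only [hdiff, inner2, Finset.mem_filter, Finset.mem_product] at h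
      obtain ⟨⟨⟨ha, hc⟩, hadj⟩, hne⟩ := h
      rw [Finset.mem_union]
      by_cases hab : a i = b
      · right
        refine Finset.mem_image.2 ⟨(c, a), ?_, rfl⟩
        simp only [hT, hout, Finset.mem_biUnion, Finset.mem_filter, Finset.mem_image]
        exact ⟨c, ⟨hc, fun h => hne (hab.trans h.symm)⟩, a,
          hdir c a hadj.symm (fun h => hne h.symm), rfl⟩
      · left
        simp only [hT, hout, Finset.mem_biUnion, Finset.mem_filter, Finset.mem_image]
        exact ⟨a, ⟨ha, hab⟩, c, hdir a c hadj hne, rfl⟩
    calc diff.card ≤ (T ∪ T.image Prod.swap).card := Finset.card_le_card hsub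
      _ ≤ T.card + (T.image Prod.swap).card := Finset.card_union_le _ _
      _ ≤ _ := by have := Finset.card_image_le (f := Prod.swap) (s := T); omega
  have houtc : out.card = ∑ v ∈ vals.erase b, (part v).card := by
    have h2 := Finset.card_filter_add_card_filter_not (s := A) (fun z => z i = b)
    have h3 := Finset.add_sum_erase vals (fun v => (part v).card) hb
    simp only [hsum] at h3
    simp only [hpart, hout] at h3 ⊢
    omega
  have hother : ∀ v ∈ vals.erase b,
      (inner2 (piProd G) (part v)).card ≤ 2 * D * j * (part v).card := by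
    intro v hv
    obtain ⟨hvb, hvm⟩ := Finset.mem_erase.1 hv
    refine ih _ (hlt v) (part v) j rfl ?_
    have hle : (part v).card + (part b).card ≤ A.card := by
      rw [← hsum, ← Finset.sum_pair hvb (f := fun v => (part v).card)]
      exact Finset.sum_le_sum_of_subset (Finset.insert_subset hvm (Finset.singleton_subset_iff.2 hb))
    have := hmax v hvm
    rw [pow_succ] at hk
    omega
  have hbig : (inner2 (piProd G) (part b)).card ≤ 2 * D * (j + 1) * (part b).card :=
    ih _ (hlt b) (part b) (j + 1) rfl ((Finset.card_filter_le _ _).trans hk)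
  calc (inner2 (piProd G) A).card = same.card + diff.card := hsplit
    _ ≤ ∑ v ∈ vals, (inner2 (piProd G) (part v)).card + 2 * (D * out.card) :=
        Nat.add_le_add hsame' hdiff'
    _ ≤ 2 * D * (j + 1) * (part b).card + ∑ v ∈ vals.erase b, 2 * D * j * (part v).card +
          2 * (D * out.card) := by
        rw [← Finset.add_sum_erase vals _ hb]
        exact Nat.add_le_add_right (Nat.add_le_add hbig (Finset.sum_le_sum hother)) _
    _ = 2 * D * (j + 1) * ((part b).card + out.card) := by
        rw [← Finset.mul_sum, ← houtc]; ring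
    _ = 2 * D * (j + 1) * A.card := by
        rw [houtc, Finset.add_sum_erase vals (fun v => (part v).card) hb, hsum]

lemma bdry_le_cut {W : Type*} (H : SimpleGraph W) [H.LocallyFinite] (A : Finset W) :
    (bdry H A).card ≤ (cut H A).card := by
  refine le_trans (Finset.card_le_card ?_) (Finset.card_image_le (f := Prod.snd))
  intro y hy
  simp only [bdry, Finset.mem_sdiff, Finset.mem_biUnion, SimpleGraph.mem_neighborFinset] at hy
  obtain ⟨⟨a, ha, hay⟩, hyA⟩ := hy
  exact Finset.mem_image.2 ⟨(a, y), mem_cut.2 ⟨ha, hyA, hay⟩, rfl⟩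

lemma cut_le_bdry {W : Type*} (H : SimpleGraph W) [H.LocallyFinite] {d : ℕ}
    (hd : ∀ x, H.degree x = d) (A : Finset W) : (cut H A).card ≤ d * (bdry H A).card := by
  have hsub : cut H A ⊆
      (bdry H A).biUnion (fun y => (H.neighborFinset y).image (fun a => (a, y))) := by
    rintro ⟨a, y⟩ h
    obtain ⟨ha, hy, hadj⟩ := mem_cut.1 h
    simp only [Finset.mem_biUnion, Finset.mem_image, bdry, Finset.mem_sdiff,
      SimpleGraph.mem_neighborFinset]
    exact ⟨y, ⟨⟨a, ha, hadj⟩, hy⟩, a, hadj.symm, rfl⟩
  refine (Finset.card_le_card hsub).trans (Finset.card_biUnion_le.trans ?_)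
  rw [mul_comm, ← smul_eq_mul, ← Finset.sum_const]
  exact Finset.sum_le_sum fun y _ => Finset.card_image_le.trans
    ((SimpleGraph.card_neighborFinset_eq_degree _ _).trans (hd y)).le

/-- Expansion adds over the factors. -/
lemma cut_piProd {η : ι → ℝ}
    (hexp : ∀ i (A : Finset (V i)), η i * A.card ≤ (cut (G i) A).card)
    (A : Finset (∀ i, V i)) :
    (∑ i, η i) * A.card ≤ (cut (piProd G) A).card := by
  have hcard : (cut (piProd G) A).card =
      ∑ i, ∑ x ∈ A, ((dirNbr G x i).filter (· ∉ A)).card := by
    rw [cut_card, Finset.sum_comm]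
    refine Finset.sum_congr rfl fun x _ => ?_
    rw [nbr_eq, Finset.filter_biUnion, Finset.card_biUnion]
    · refine Finset.sum_congr rfl fun u _ => congrArg Finset.card ?_
      ext a
      simp only [Finset.mem_filter]
    · intro i hi j hj hij
      rw [Function.onFun, Finset.disjoint_left]
      intro a ha hb
      simp only [Finset.mem_filter] at ha hb
      exact Finset.disjoint_left.1 (dir_disjoint G x hi hj hij) ha.1 hb.1
  rcases A.eq_empty_or_nonempty with rfl | ⟨z, -⟩
  · simp
  have hi : ∀ i, η i * A.card ≤ ((∑ x ∈ A, ((dirNbr G x i).filter (· ∉ A)).card : ℕ) : ℝ) := by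
    intro i
    set key : (∀ i, V i) → (∀ i, V i) := fun x => Function.update x i (z i) with hkey
    have e1 : (A.card : ℝ) = ∑ r ∈ A.image key, ((A.filter (fun x => key x = r)).card : ℝ) := by
      exact_mod_cast Finset.card_eq_sum_card_image key A
    have e2 : ∑ x ∈ A, ((dirNbr G x i).filter (· ∉ A)).card =
        ∑ r ∈ A.image key, ∑ x ∈ A.filter (fun x => key x = r),
          ((dirNbr G x i).filter (· ∉ A)).card :=
      (Finset.sum_fiberwise_of_maps_to (fun x hx => Finset.mem_image_of_mem key hx) _).symm
    rw [e1, e2, Finset.mul_sum, Nat.cast_sum]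
    refine Finset.sum_le_sum fun r _ => ?_
    set P := A.filter (fun x => key x = r) with hP
    have hrec : ∀ x ∈ P, x = Function.update r i (x i) := by
      intro x hx
      rw [← (Finset.mem_filter.1 hx).2, hkey]
      simp
    have hinj : Set.InjOn (fun x : ∀ i, V i => x i) P := by
      intro a ha b hb h
      rw [hrec a ha, hrec b hb]
      simp only at h
      rw [h]
    refine le_trans (le_of_eq ?_) ((hexp i (P.image (fun x => x i))).trans (le_of_eq ?_))
    · rw [Finset.card_image_of_injOn hinj]
    · rw [cut_card, Finset.sum_image hinj]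
      norm_cast
      refine Finset.sum_congr rfl fun x hx => ?_
      rw [dirNbr, Finset.filter_image,
        Finset.card_image_of_injective _ (Function.update_injective x i)]
      congr 1
      refine Finset.filter_congr fun a _ => not_congr ?_
      constructor
      · intro ha
        obtain ⟨w, hw, hwi⟩ := Finset.mem_image.1 ha
        have : Function.update x i a = w := by
          rw [hrec x hx, hrec w hw]
          simp [hwi]
        rw [this]
        exact (Finset.mem_filter.1 hw).1
      · intro ha
        refine Finset.mem_image.2 ⟨Function.update x i a, Finset.mem_filter.2 ⟨ha, ?_⟩, by simp⟩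
        rw [hkey, ← (Finset.mem_filter.1 hx).2]
        simp [hkey]
  rw [hcard, Nat.cast_sum]
  calc (∑ i, η i) * A.card = ∑ i, η i * A.card := Finset.sum_mul _ _ _
    _ ≤ _ := Finset.sum_le_sum fun i _ => hi i

omit [∀ i, (G i).LocallyFinite] [(piProd G).LocallyFinite] in
lemma connected_piProd (hc : ∀ i, (G i).Connected) : (piProd G).Connected := by
  have : ∀ i, Nonempty (V i) := fun i => (hc i).nonempty
  refine ⟨fun x y => ?_⟩
  have key : ∀ s : Finset ι, (piProd G).Reachable x (s.piecewise y x) := by
    intro s
    induction s using Finset.induction_on with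
    | empty => simp
    | insert i s hi ih =>
      rw [Finset.piecewise_insert]
      refine ih.trans ?_
      set w := s.piecewise y x
      let f : G i →g piProd G :=
        ⟨fun a => Function.update w i a, fun {a b} h =>
          ⟨i, by simpa using h, fun j hj => by simp [hj]⟩⟩
      have := ((hc i).preconnected (w i) (y i)).map f
      have hf : ∀ a, f a = Function.update w i a := fun a => rfl
      rwa [hf, hf, Function.update_eq_self] at this
  simpa using key Finset.univ

omit [∀ i, (G i).LocallyFinite] [(piProd G).LocallyFinite] in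
lemma quasiTransitive_piProd (h : ∀ i, QuasiTransitive (G i)) : QuasiTransitive (piProd G) := by
  choose S hS using h
  refine ⟨Fintype.piFinset S, fun x => ?_⟩
  choose φ hφ using fun i => hS i (x i)
  refine ⟨⟨Equiv.piCongrRight fun i => (φ i).toEquiv, ?_⟩, Fintype.mem_piFinset.2 hφ⟩
  intro a b
  simp only [piProd, Equiv.piCongrRight_apply, Pi.map_apply]
  refine exists_congr fun i => and_congr (φ i).map_adj_iff ?_
  exact forall_congr' fun j => imp_congr_right fun _ => (φ j).injective.eq_iff

/-- Splitting off one factor. -/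
def splitAt {n : ℕ} {V : Fin (n + 1) → Type*} (G : ∀ i, SimpleGraph (V i)) (p : Fin (n + 1)) :
    (G p □ piProd (fun i : Fin n => G (p.succAbove i))) ≃g piProd G where
  toEquiv := Fin.insertNthEquiv V p
  map_rel_iff' := by
    rintro ⟨a, f⟩ ⟨b, g⟩
    simp only [Fin.insertNthEquiv_apply, SimpleGraph.boxProd_adj, piProd]
    constructor
    · rintro ⟨i, h1, h2⟩
      induction i using Fin.succAboveCases p with
      | x =>
        refine Or.inl ⟨by simpa using h1, funext fun j => ?_⟩
        simpa using h2 (p.succAbove j) (Fin.succAbove_ne p j)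
      | p i =>
        refine Or.inr ⟨⟨i, by simpa using h1, fun j hj => ?_⟩,
          by simpa using h2 p (Fin.succAbove_ne p i).symm⟩
        simpa using h2 (p.succAbove j) (fun h => hj (Fin.succAbove_right_injective h))
    · rintro (⟨h1, h2⟩ | ⟨⟨i, h1, h2⟩, h3⟩)
      · refine ⟨p, by simpa using h1, fun j hj => ?_⟩
        obtain ⟨k, rfl⟩ := Fin.exists_succAbove_eq hj
        simpa using congrFun h2 k
      · refine ⟨p.succAbove i, by simpa using h1, fun j hj => ?_⟩
        rcases Fin.eq_self_or_eq_succAbove p j with rfl | ⟨k, rfl⟩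
        · simpa using h3
        · simpa using h2 k (fun h => hj (by rw [h]))

end P165
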