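import Vale.Agent.P165.Exploration

/-!
Cheeger inequality for regular graphs and the resulting bounds on walk counts and two-point
connection probabilities.
-/

open MeasureTheory ProbabilityTheory SimpleGraph
open scoped ENNReal Classical

namespace P165

variable {V : Type*} (G : SimpleGraph V) [G.LocallyFinite]

/-- The adjacency quadratic form on a finite set. -/
noncomputable def quad (U : Finset V) (f : V → ℝ) : ℝ :=
  ∑ q ∈ (U ×ˢ U).filter (fun q => G.Adj q.1 q.2), f q.1 * f q.2

lemma cut_card (A : Finset V) :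
    (cut G A).card = ∑ x ∈ A, ((G.neighborFinset x).filter (· ∉ A)).card := by
  rw [cut, Finset.card_biUnion]
  · refine Finset.sum_congr rfl fun x _ => Finset.card_image_of_injective _ ?_
    intro a b h
    exact (Prod.mk.inj h).2
  · intro a _ b _ hab
    simp only [Function.onFun, Finset.disjoint_left, Finset.mem_image]
    rintro _ ⟨c, -, rfl⟩ ⟨d, -, h⟩
    exact hab (Prod.mk.inj h).1.symm

/-- Layer-cake form of edge expansion. -/
lemma layer {η : ℝ} (hexp : ∀ A : Finset V, η * A.card ≤ (cut G A).card) :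
    ∀ (n : ℕ) (A : Finset V) (g : V → ℝ), A.card = n → (∀ x ∈ A, 0 ≤ g x) → (∀ x ∉ A, g x = 0) →
      η * ∑ x ∈ A, g x ≤ ∑ x ∈ A, ∑ y ∈ G.neighborFinset x, max (g x - g y) 0 := by
  intro n
  induction n using Nat.strong_induction_on with
  | _ n ih =>
  intro A g hn hpos hzero
  rcases A.eq_empty_or_nonempty with rfl | hne
  · simp
  obtain ⟨x0, hx0, hmin⟩ := A.exists_min_image g hne
  set m := g x0 with hm
  have hm0 : 0 ≤ m := hpos x0 hx0
  set A' := A.filter (fun x => g x ≠ m) with hA'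
  set g' : V → ℝ := fun x => if x ∈ A then g x - m else 0 with hg'
  have hlt : A'.card < n := by
    rw [← hn]
    refine Finset.card_lt_card ?_
    rw [hA', Finset.filter_ssubset]
    exact ⟨x0, hx0, by simp [hm]⟩
  have hout : ∀ x ∈ A, x ∉ A' → g' x = 0 := by
    intro x hx hx'
    have : g x = m := by
      by_contra h
      exact hx' (Finset.mem_filter.2 ⟨hx, h⟩)
    simp [hg', hx, this]
  have hpos' : ∀ x, 0 ≤ g' x := by
    intro x
    by_cases hx : x ∈ A
    · simp only [hg', if_pos hx, sub_nonneg]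
      exact hmin x hx
    · simp [hg', hx]
  have h1 := ih _ hlt A' g' rfl (fun x _ => hpos' x) (fun x hx => by
    by_cases hxA : x ∈ A
    · exact hout x hxA hx
    · simp [hg', hxA])
  have e1 : ∑ x ∈ A, g x = ∑ x ∈ A', g' x + m * A.card := by
    rw [Finset.sum_subset (Finset.filter_subset _ A) (fun x hx hx' => hout x hx hx'),
      mul_comm m, ← nsmul_eq_mul, ← Finset.sum_const, ← Finset.sum_add_distrib]
    exact Finset.sum_congr rfl fun x hx => by simp [hg', hx]
  have e2 : ∑ x ∈ A, ∑ y ∈ G.neighborFinset x, max (g' x - g' y) 0 + m * (cut G A).card =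
      ∑ x ∈ A, ∑ y ∈ G.neighborFinset x, max (g x - g y) 0 := by
    rw [cut_card, Nat.cast_sum, Finset.mul_sum, ← Finset.sum_add_distrib]
    refine Finset.sum_congr rfl fun x hx => ?_
    rw [mul_comm m, ← nsmul_eq_mul, ← Finset.sum_const, Finset.sum_filter,
      ← Finset.sum_add_distrib]
    refine Finset.sum_congr rfl fun y _ => ?_
    by_cases hy : y ∈ A
    · simp [hg', hx, hy]
    · have hgx : m ≤ g x := hmin x hx
      simp only [hg', if_pos hx, if_neg hy, if_pos (show y ∉ A from hy), hzero y hy, sub_zero]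
      rw [max_eq_left (by linarith), max_eq_left (by linarith)]
      ring
  have e3 : ∑ x ∈ A', ∑ y ∈ G.neighborFinset x, max (g' x - g' y) 0 ≤
      ∑ x ∈ A, ∑ y ∈ G.neighborFinset x, max (g' x - g' y) 0 :=
    Finset.sum_le_sum_of_subset_of_nonneg (Finset.filter_subset _ A)
      (fun x _ _ => Finset.sum_nonneg fun y _ => le_max_right _ _)
  have h2 : m * (η * A.card) ≤ m * (cut G A).card := mul_le_mul_of_nonneg_left (hexp A) hm0
  rw [e1, ← e2]
  nlinarith

variable {d : ℕ} (hd : ∀ x, G.degree x = d)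

include hd in
/-- Cheeger inequality. -/
lemma quad_bound {η : ℝ} (hη : 0 ≤ η) (hηd : η ≤ d)
    (hexp : ∀ A : Finset V, η * A.card ≤ (cut G A).card) (U : Finset V) (f : V → ℝ) :
    |quad G U f| ≤ Real.sqrt ((d : ℝ) ^ 2 - η ^ 2) * ∑ x ∈ U, f x ^ 2 := by
  set h : V → ℝ := fun x => if x ∈ U then |f x| else 0 with hh
  set T := U ∪ U.biUnion (fun x => G.neighborFinset x) with hT
  set E := (T ×ˢ T).filter (fun q => G.Adj q.1 q.2) with hE
  set N := ∑ x ∈ U, f x ^ 2 with hN
  set Q := ∑ q ∈ E, h q.1 * h q.2 with hQ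
  have hh0 : ∀ x, 0 ≤ h x := fun x => by by_cases hx : x ∈ U <;> simp [hh, hx]
  have hhout : ∀ x ∉ U, h x = 0 := fun x hx => by simp [hh, hx]
  have hsq : ∀ x ∈ U, h x ^ 2 = f x ^ 2 := fun x hx => by simp [hh, hx, sq_abs]
  have hQle : |quad G U f| ≤ Q := by
    refine (Finset.abs_sum_le_sum_abs _ _).trans ?_
    refine (Finset.sum_le_sum (g := fun q => h q.1 * h q.2) ?_).trans
      (Finset.sum_le_sum_of_subset_of_nonneg ?_ (fun q _ _ => mul_nonneg (hh0 _) (hh0 _)))
    · intro q hq
      simp only [Finset.mem_filter, Finset.mem_product] at hq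
      simp [hh, hq.1.1, hq.1.2, abs_mul]
    · intro q hq
      simp only [hE, hT, Finset.mem_filter, Finset.mem_product, Finset.mem_union] at hq ⊢
      exact ⟨⟨Or.inl hq.1.1, Or.inl hq.1.2⟩, hq.2⟩
  have hrow : ∀ x ∈ U, T.filter (fun y => G.Adj x y) = G.neighborFinset x := by
    intro x hx
    ext y
    simp only [Finset.mem_filter, SimpleGraph.mem_neighborFinset, hT, Finset.mem_union,
      Finset.mem_biUnion]
    exact ⟨fun h => h.2, fun h => ⟨Or.inr ⟨x, hx, h⟩, h⟩⟩
  have hsumE : ∀ F : V → V → ℝ,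
      ∑ q ∈ E, F q.1 q.2 = ∑ x ∈ T, ∑ y ∈ T.filter (fun y => G.Adj x y), F x y := by
    intro F
    rw [hE, Finset.sum_filter, Finset.sum_product]
    exact Finset.sum_congr rfl fun x _ => by rw [Finset.sum_filter]
  have hswap : ∀ F : V → V → ℝ, ∑ q ∈ E, F q.1 q.2 = ∑ q ∈ E, F q.2 q.1 := by
    intro F
    refine Finset.sum_nbij' Prod.swap Prod.swap ?_ ?_ ?_ ?_ ?_ <;>
      simp [hE, G.adj_comm, and_comm]
  have hdeg : ∑ q ∈ E, h q.1 ^ 2 = d * N := by
    rw [hsumE (fun x _ => h x ^ 2), hN, Finset.mul_sum,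
      ← Finset.sum_subset (Finset.subset_union_left (s₂ := U.biUnion _)) (fun x _ hx => by
        simp [hhout x hx])]
    refine Finset.sum_congr rfl fun x hx => ?_
    rw [Finset.sum_const, hrow x hx, SimpleGraph.card_neighborFinset_eq_degree, hd, hsq x hx,
      nsmul_eq_mul]
  have hdeg' : ∑ q ∈ E, h q.2 ^ 2 = d * N := by rw [← hswap (fun x _ => h x ^ 2), hdeg]
  have hlay : η * N ≤ ∑ q ∈ E, max (h q.1 ^ 2 - h q.2 ^ 2) 0 := by
    have := layer G hexp _ U (fun x => h x ^ 2) rfl (fun x _ => sq_nonneg _)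
      (fun x hx => by simp [hhout x hx])
    rw [Finset.sum_congr rfl hsq] at this
    refine this.trans ?_
    rw [hsumE (fun x y => max (h x ^ 2 - h y ^ 2) 0)]
    refine le_trans (le_of_eq (Finset.sum_congr rfl fun x hx => by rw [hrow x hx]))
      (Finset.sum_le_sum_of_subset_of_nonneg Finset.subset_union_left
        (fun x _ _ => Finset.sum_nonneg fun y _ => le_max_right _ _))
  have habs : 2 * (η * N) ≤ ∑ q ∈ E, |h q.1 - h q.2| * (h q.1 + h q.2) := by
    have e : ∀ a b : ℝ, 0 ≤ a → 0 ≤ b →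
        |a - b| * (a + b) = max (a ^ 2 - b ^ 2) 0 + max (b ^ 2 - a ^ 2) 0 := by
      intro a b ha hb
      rcases le_total a b with hab | hab
      · rw [abs_of_nonpos (by linarith), max_eq_right (by nlinarith), max_eq_left (by nlinarith)]
        ring
      · rw [abs_of_nonneg (by linarith), max_eq_left (by nlinarith), max_eq_right (by nlinarith)]
        ring
    rw [Finset.sum_congr rfl (fun q _ => e _ _ (hh0 q.1) (hh0 q.2)), Finset.sum_add_distrib,
      ← hswap (fun x y => max (h x ^ 2 - h y ^ 2) 0)]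
    linarith
  have hcs := Finset.sum_mul_sq_le_sq_mul_sq E (fun q => |h q.1 - h q.2|) (fun q => h q.1 + h q.2)
  have em : ∑ q ∈ E, |h q.1 - h q.2| ^ 2 = 2 * (d * N) - 2 * Q := by
    rw [hQ, Finset.mul_sum (a := (2 : ℝ)), two_mul (_ : ℝ)]
    nth_rewrite 1 [← hdeg]
    rw [← hdeg', ← Finset.sum_add_distrib, ← Finset.sum_sub_distrib]
    exact Finset.sum_congr rfl fun q _ => by rw [sq_abs]; ring
  have ep : ∑ q ∈ E, (h q.1 + h q.2) ^ 2 = 2 * (d * N) + 2 * Q := by
    rw [hQ, Finset.mul_sum (a := (2 : ℝ)), two_mul (_ : ℝ)]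
    nth_rewrite 1 [← hdeg]
    rw [← hdeg', ← Finset.sum_add_distrib, ← Finset.sum_add_distrib]
    exact Finset.sum_congr rfl fun q _ => by ring
  have hN0 : 0 ≤ N := Finset.sum_nonneg fun x _ => sq_nonneg _
  rw [em, ep] at hcs
  have h4 : (2 * (η * N)) ^ 2 ≤ (∑ q ∈ E, |h q.1 - h q.2| * (h q.1 + h q.2)) ^ 2 :=
    pow_le_pow_left₀ (by positivity) habs 2
  have h5 : Q ^ 2 ≤ ((d : ℝ) ^ 2 - η ^ 2) * N ^ 2 := by nlinarith
  refine hQle.trans ?_
  rw [← Real.sqrt_sq hN0, ← Real.sqrt_mul (by nlinarith)]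
  exact (le_abs_self Q).trans ((Real.sqrt_sq_eq_abs Q).symm.le.trans (Real.sqrt_le_sqrt h5))

/-- Number of walks of length `k`. -/
noncomputable def nw : ℕ → V → V → ℝ
  | 0, x, y => if x = y then 1 else 0
  | k + 1, x, y => ∑ z ∈ G.neighborFinset x, nw k z y

lemma nw_nonneg : ∀ k x y, 0 ≤ nw G k x y
  | 0, x, y => by simp only [nw]; split <;> norm_num
  | k + 1, x, y => by simp only [nw]; exact Finset.sum_nonneg fun z _ => nw_nonneg k z y

/-- A finite set carrying the walk counts towards `y`. -/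
noncomputable def sphere (y : V) : ℕ → Finset V
  | 0 => {y}
  | k + 1 => (sphere y k).biUnion (fun z => G.neighborFinset z)

lemma nw_support (y : V) : ∀ k x, nw G k x y ≠ 0 → x ∈ sphere G y k
  | 0, x, h => by
    by_contra hx
    simp [sphere] at hx
    simp [nw, hx] at h
  | k + 1, x, h => by
    simp only [nw] at h
    obtain ⟨z, hz, hz'⟩ := Finset.exists_ne_zero_of_sum_ne_zero h
    simp only [sphere, Finset.mem_biUnion, SimpleGraph.mem_neighborFinset] at hz ⊢
    exact ⟨z, nw_support y k z hz', hz.symm⟩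

lemma nw_sq_le {lam : ℝ} (hl : 0 < lam)
    (hq : ∀ (U : Finset V) (f : V → ℝ), |quad G U f| ≤ lam * ∑ x ∈ U, f x ^ 2) (y : V) :
    ∀ (k : ℕ) (U : Finset V), ∑ x ∈ U, nw G k x y ^ 2 ≤ (lam ^ k) ^ 2 := by
  intro k
  induction k with
  | zero =>
    intro U
    simp only [nw, ite_pow, one_pow, ne_eq, OfNat.ofNat_ne_zero, not_false_eq_true, zero_pow,
      pow_zero]
    rw [Finset.sum_ite_eq']
    split <;> norm_num
  | succ k ih =>
    intro U0
    set U := U0 ∪ sphere G y k with hU
    refine (Finset.sum_le_sum_of_subset_of_nonneg (t := U) Finset.subset_union_left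
      (fun x _ _ => sq_nonneg _)).trans ?_
    set f := fun x => nw G (k + 1) x y
    set g := fun x => nw G k x y
    have hfg : ∑ x ∈ U, f x ^ 2 =
        ∑ q ∈ (U ×ˢ U).filter (fun q => G.Adj q.1 q.2), f q.1 * g q.2 := by
      rw [Finset.sum_filter, Finset.sum_product]
      refine Finset.sum_congr rfl fun x _ => ?_
      rw [← Finset.sum_filter]
      change f x ^ 2 = ∑ z ∈ U.filter (fun z => G.Adj x z), f x * g z
      rw [← Finset.mul_sum, sq]
      congr 1
      change nw G (k + 1) x y = _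
      rw [nw]
      refine (Finset.sum_subset ?_ ?_).symm
      · intro z hz
        simp only [Finset.mem_filter] at hz
        simpa using hz.2
      · intro z hz hz'
        by_contra h0
        exact hz' (Finset.mem_filter.2
          ⟨Finset.mem_union_right _ (nw_support G y k z h0), by simpa using hz⟩)
    have hgf : ∑ x ∈ U, f x ^ 2 =
        ∑ q ∈ (U ×ˢ U).filter (fun q => G.Adj q.1 q.2), g q.1 * f q.2 := by
      rw [hfg]
      refine Finset.sum_nbij' Prod.swap Prod.swap ?_ ?_ ?_ ?_ ?_ <;>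
        simp [G.adj_comm, and_comm, mul_comm]
    have hpl := abs_le.1 (hq U (fun x => f x + lam * g x))
    have hmi := abs_le.1 (hq U (fun x => f x - lam * g x))
    have e1 : quad G U (fun x => f x + lam * g x) - quad G U (fun x => f x - lam * g x) =
        4 * lam * ∑ x ∈ U, f x ^ 2 := by
      rw [show 4 * lam * ∑ x ∈ U, f x ^ 2 =
        2 * lam * ∑ x ∈ U, f x ^ 2 + 2 * lam * ∑ x ∈ U, f x ^ 2 by ring]
      nth_rewrite 1 [hfg]
      rw [hgf, quad, quad, Finset.mul_sum, Finset.mul_sum, ← Finset.sum_add_distrib,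
        ← Finset.sum_sub_distrib]
      exact Finset.sum_congr rfl fun q _ => by ring
    have e2 : ∑ x ∈ U, (f x + lam * g x) ^ 2 + ∑ x ∈ U, (f x - lam * g x) ^ 2 =
        2 * ∑ x ∈ U, f x ^ 2 + 2 * lam ^ 2 * ∑ x ∈ U, g x ^ 2 := by
      rw [Finset.mul_sum, Finset.mul_sum, ← Finset.sum_add_distrib, ← Finset.sum_add_distrib]
      exact Finset.sum_congr rfl fun x _ => by ring
    have h6 : ∑ x ∈ U, f x ^ 2 ≤ lam ^ 2 * ∑ x ∈ U, g x ^ 2 := by
      refine le_of_mul_le_mul_left ?_ hl
      nlinarith [hpl.2, hmi.1]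
    calc ∑ x ∈ U, f x ^ 2 ≤ lam ^ 2 * ∑ x ∈ U, g x ^ 2 := h6
      _ ≤ lam ^ 2 * (lam ^ k) ^ 2 := mul_le_mul_of_nonneg_left (ih U) (sq_nonneg _)
      _ = (lam ^ (k + 1)) ^ 2 := by ring

lemma walks_le : ∀ k x y, ((G.finsetWalkLength k x y).card : ℝ) ≤ nw G k x y
  | 0, x, y => by
    by_cases h : x = y
    · subst h; simp [SimpleGraph.finsetWalkLength, nw]
    · simp [SimpleGraph.finsetWalkLength, nw, h]
  | k + 1, x, y => by
    simp only [nw, SimpleGraph.finsetWalkLength]
    refine (Nat.cast_le.2 Finset.card_biUnion_le).trans ?_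
    push_cast
    simp only [Finset.card_map]
    refine (Finset.sum_le_sum fun z _ => walks_le k z.1 y).trans (le_of_eq ?_)
    refine Eq.trans ?_ (Finset.sum_coe_sort (G.neighborFinset x) (fun z => nw G k z y))
    exact Fintype.sum_equiv (Equiv.subtypeEquivRight fun z => by simp) _ _ (fun z => rfl)

/-- Two-point bound. -/
lemma tau_le (p : unitInterval) {lam : ℝ} (hl : 0 < lam)
    (hq : ∀ (U : Finset V) (f : V → ℝ), |quad G U f| ≤ lam * ∑ x ∈ U, f x ^ 2)
    (hp : (p : ℝ) * lam < 1) (x y : V) (L : ℕ)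
    (hdist : ∀ w : G.Walk x y, L ≤ w.length) :
    setBer(G.edgeSet, p) {ω | (openGraph G ω).Reachable x y} ≤
      ENNReal.ofReal (((p : ℝ) * lam) ^ L * (1 - (p : ℝ) * lam)⁻¹) := by
  have hpl : 0 ≤ (p : ℝ) * lam := mul_nonneg p.2.1 hl.le
  set P : ℕ → Finset (G.Walk x y) := fun k =>
    (G.finsetWalkLength (k + L) x y).filter (fun w => w.IsPath) with hP
  have hsub : {ω | (openGraph G ω).Reachable x y} ⊆
      ⋃ k, ⋃ w ∈ P k, pat w.edges.toFinset ∅ := by
    intro ω hω
    obtain ⟨w, hw⟩ := SimpleGraph.Reachable.exists_isPath (show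
      (openGraph G ω).Reachable x y from hω)
    have hle : openGraph G ω ≤ G := fun a b h => (openGraph_adj.1 h).1
    refine Set.mem_iUnion.2 ⟨w.length - L, Set.mem_iUnion₂.2 ⟨w.mapLe hle, ?_, ?_, by simp⟩⟩
    · simp only [hP, Finset.mem_filter, SimpleGraph.mem_finsetWalkLength_iff]
      have := hdist (w.mapLe hle)
      simp only [SimpleGraph.Walk.length_map, SimpleGraph.Walk.mapLe] at this ⊢
      exact ⟨by omega, hw.mapLe hle⟩
    · intro e he
      simp only [List.coe_toFinset, Set.mem_ofPred_eq] at he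
      have he' : e ∈ w.edges := by simpa [SimpleGraph.Walk.mapLe] using he
      have := w.edges_subset_edgeSet he'
      rw [openGraph, SimpleGraph.edgeSet_fromEdgeSet] at this
      exact this.1.1
  refine (measure_mono hsub).trans ((measure_iUnion_le _).trans ?_)
  have hk : ∀ k, setBer(G.edgeSet, p) (⋃ w ∈ P k, pat w.edges.toFinset ∅) ≤
      ENNReal.ofReal (((p : ℝ) * lam) ^ L * ((p : ℝ) * lam) ^ k) := by
    intro k
    refine (measure_biUnion_finset_le _ _).trans ?_
    have hw : ∀ w ∈ P k, setBer(G.edgeSet, p) (pat w.edges.toFinset ∅) =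
        ENNReal.ofReal ((p : ℝ) ^ (k + L)) := by
      intro w hw
      simp only [hP, Finset.mem_filter, SimpleGraph.mem_finsetWalkLength_iff] at hw
      rw [← ofReal_measureReal]
      rw [measure_pat _ p (Finset.disjoint_empty_right _)
        (fun e he => w.edges_subset_edgeSet (by simpa using he)),
        List.toFinset_card_of_nodup hw.2.edges_nodup]
      simp [hw.1]
    rw [Finset.sum_congr rfl hw, Finset.sum_const, nsmul_eq_mul, ← ENNReal.ofReal_natCast,
      ← ENNReal.ofReal_mul (by positivity)]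
    refine ENNReal.ofReal_le_ofReal ?_
    rw [← pow_add, mul_pow, add_comm L k, mul_comm ((p : ℝ) ^ (k + L)) _]
    refine mul_le_mul_of_nonneg_right ?_ (pow_nonneg p.2.1 _)
    calc ((P k).card : ℝ) ≤ (G.finsetWalkLength (k + L) x y).card := by
          exact_mod_cast Finset.card_filter_le _ _
      _ ≤ nw G (k + L) x y := walks_le G _ _ _
      _ ≤ lam ^ (k + L) := by
          have := nw_sq_le G hl hq y (k + L) {x}
          rw [Finset.sum_singleton] at this
          exact le_of_pow_le_pow_left₀ two_ne_zero (pow_nonneg hl.le _) this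
  refine (ENNReal.tsum_le_tsum hk).trans ?_
  rw [← ENNReal.ofReal_tsum_of_nonneg (fun k => by positivity)
    ((summable_geometric_of_lt_one hpl hp).mul_left _), tsum_mul_left,
    tsum_geometric_of_lt_one hpl hp]

end P165
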