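import Vale.Agent.P165.Spectral

/-!
Invariance of percolation under graph isomorphisms and absence of uniqueness below the inverse
spectral radius.
-/

open MeasureTheory ProbabilityTheory SimpleGraph
open scoped ENNReal Classical

namespace P165

variable {V V' : Type*}

/-- Finitely many orbits of vertices under the automorphism group. -/
def QuasiTransitive (G : SimpleGraph V) : Prop :=
  ∃ S : Finset V, ∀ x, ∃ φ : G ≃g G, φ x ∈ S

lemma mem_sphere {G : SimpleGraph V} [G.LocallyFinite] {y : V} :
    ∀ {k : ℕ} {x : V} (w : G.Walk x y), w.length = k → x ∈ sphere G y k := by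
  intro k
  induction k with
  | zero =>
    intro x w hw
    cases w with
    | nil => simp [sphere]
    | cons h p => simp at hw
  | succ k ih =>
    intro x w hw
    cases w with
    | nil => simp at hw
    | cons h p =>
      simp only [sphere, Finset.mem_biUnion, SimpleGraph.mem_neighborFinset]
      exact ⟨_, ih p (by simpa using hw), h.symm⟩

lemma countable_of_connected (G : SimpleGraph V) [G.LocallyFinite] (hc : G.Connected) :
    Countable V := by
  obtain ⟨y⟩ := hc.nonempty
  rw [← Set.countable_univ_iff]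
  refine Set.Countable.mono ?_ (Set.countable_iUnion fun k => (sphere G y k).countable_toSet)
  intro x _
  obtain ⟨w⟩ := hc.preconnected x y
  exact Set.mem_iUnion.2 ⟨w.length, mem_sphere w rfl⟩

/-- The event that `x` and `y` are connected. -/
def conn (G : SimpleGraph V) (x y : V) : Set (Set (Sym2 V)) :=
  {ω | (openGraph G ω).Reachable x y}

/-- The event that the cluster of `x` is infinite. -/
def infAt (G : SimpleGraph V) (x : V) : Set (Set (Sym2 V)) :=
  {ω | (cluster G ω x).Infinite}

lemma measurableSet_conn (G : SimpleGraph V) [G.LocallyFinite] (x y : V) :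
    MeasurableSet (conn G x y) := by
  have : conn G x y = ⋃ k, ⋃ w ∈ G.finsetWalkLength k x y,
      ⋂ e ∈ w.edges.toFinset, {ω : Set (Sym2 V) | e ∈ ω} := by
    ext ω
    simp only [conn, Set.mem_ofPred_eq, Set.mem_iUnion, Set.mem_iInter]
    constructor
    · rintro ⟨w⟩
      have hle : openGraph G ω ≤ G := fun a b h => (openGraph_adj.1 h).1
      refine ⟨w.length, w.mapLe hle, ?_, ?_⟩
      · simp [SimpleGraph.mem_finsetWalkLength_iff, SimpleGraph.Walk.mapLe]
      · intro e he
        have he' : e ∈ w.edges := by simpa [SimpleGraph.Walk.mapLe] using he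
        have := w.edges_subset_edgeSet he'
        rw [openGraph, SimpleGraph.edgeSet_fromEdgeSet] at this
        exact this.1.1
    · rintro ⟨k, w, -, hw⟩
      refine ⟨w.transfer (openGraph G ω) fun e he => ?_⟩
      rw [openGraph, SimpleGraph.edgeSet_fromEdgeSet]
      exact ⟨⟨hw e (List.mem_toFinset.2 he), w.edges_subset_edgeSet he⟩,
        G.not_isDiag_of_mem_edgeSet (w.edges_subset_edgeSet he)⟩
  rw [this]
  exact MeasurableSet.iUnion fun k => Finset.measurableSet_biUnion _ fun w _ =>
    Finset.measurableSet_biInter _ fun e _ => measurableSet_setOfPred.2 (measurable_set_mem e)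

lemma measurableSet_infAt (G : SimpleGraph V) [G.LocallyFinite] [Countable V] (x : V) :
    MeasurableSet (infAt G x) := by
  have : infAt G x = ⋂ N : ℕ, ⋃ S ∈ {S : Finset V | N ≤ S.card}, ⋂ z ∈ S, conn G x z := by
    ext ω
    simp only [infAt, Set.mem_ofPred_eq, Set.mem_iInter, Set.mem_iUnion, conn]
    constructor
    · intro h N
      obtain ⟨S, hS, hc⟩ := h.exists_subset_card_eq N
      exact ⟨S, hc.ge, fun z hz => hS hz⟩
    · intro h hfin
      obtain ⟨S, hS, hz⟩ := h (hfin.toFinset.card + 1)
      have : S ⊆ hfin.toFinset := fun z hzS => hfin.mem_toFinset.2 (hz z hzS)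
      have := Finset.card_le_card this
      omega
  rw [this]
  exact MeasurableSet.iInter fun N => MeasurableSet.biUnion (Set.to_countable _) fun S _ =>
    Finset.measurableSet_biInter _ fun z _ => measurableSet_conn G x z

lemma percolates_eq (G : SimpleGraph V) : percolates G = ⋃ x, infAt G x := by
  ext ω; simp [percolates, infAt]

/-- Transport of configurations along an isomorphism. -/
def push {G : SimpleGraph V} {G' : SimpleGraph V'} (φ : G ≃g G') (ω : Set (Sym2 V)) :
    Set (Sym2 V') :=
  Sym2.map φ.symm ⁻¹' ω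

lemma openGraph_push {G : SimpleGraph V} {G' : SimpleGraph V'} (φ : G ≃g G') (ω : Set (Sym2 V))
    (x y : V) : (openGraph G' (push φ ω)).Adj (φ x) (φ y) ↔ (openGraph G ω).Adj x y := by
  simp [openGraph_adj, push, φ.map_adj_iff]

lemma reachable_push {G : SimpleGraph V} {G' : SimpleGraph V'} (φ : G ≃g G') (ω : Set (Sym2 V))
    (x y : V) :
    (openGraph G' (push φ ω)).Reachable (φ x) (φ y) ↔ (openGraph G ω).Reachable x y :=
  SimpleGraph.Iso.reachable_iff
    (φ := (⟨φ.toEquiv, @fun a b => openGraph_push φ ω a b⟩ :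
      openGraph G ω ≃g openGraph G' (push φ ω)))

lemma infAt_push {G : SimpleGraph V} {G' : SimpleGraph V'} (φ : G ≃g G') (x : V) :
    push φ ⁻¹' infAt G' (φ x) = infAt G x := by
  ext ω
  simp only [Set.mem_preimage, infAt, Set.mem_ofPred_eq]
  have : cluster G' (push φ ω) (φ x) = φ '' cluster G ω x := by
    ext z
    obtain ⟨y, rfl⟩ := φ.surjective z
    simp [cluster, reachable_push φ ω x y]
  rw [this, Set.infinite_image_iff φ.injective.injOn]

lemma measurable_push {G : SimpleGraph V} {G' : SimpleGraph V'} (φ : G ≃g G') :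
    Measurable (push φ) :=
  measurable_set_iff.2 fun e => measurable_set_mem (Sym2.map φ.symm e)

lemma map_push {G : SimpleGraph V} {G' : SimpleGraph V'} (φ : G ≃g G') (p : unitInterval) :
    (setBer(G.edgeSet, p)).map (push φ) = setBer(G'.edgeSet, p) := by
  set σ : Sym2 V' → Sym2 V := Sym2.map φ.symm with hσ
  have hinj : Function.Injective σ := Sym2.map.injective φ.symm.injective
  have hedge : ∀ e, (σ e ∈ G.edgeSet) = (e ∈ G'.edgeSet) := by
    intro e
    induction e using Sym2.ind with
    | h a b => simp [hσ, φ.symm.map_adj_iff]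
  rw [setBernoulli_eq_map, setBernoulli_eq_map, Measure.map_map (measurable_push φ) (by fun_prop)]
  rw [show push φ ∘ (fun q : Sym2 V → Prop => {e | q e}) =
    (fun q : Sym2 V' → Prop => {e | q e}) ∘ (fun q e => q (σ e)) from rfl,
    ← Measure.map_map (by fun_prop) (by fun_prop)]
  congr 1
  refine Measure.eq_infinitePi _ fun s t ht => ?_
  rw [Measure.map_apply (by fun_prop) (.pi s.countable_toSet fun _ _ => ht _)]
  have hpre : (fun (q : Sym2 V → Prop) e => q (σ e)) ⁻¹' (s : Set (Sym2 V')).pi t =
      ((s.image σ : Finset (Sym2 V)) : Set (Sym2 V)).pi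
        (fun f => if h : ∃ e, σ e = f then t h.choose else Set.univ) := by
    ext q
    simp only [Set.mem_preimage, Set.mem_pi, Finset.mem_coe, Finset.mem_image]
    constructor
    · rintro h f ⟨e, he, rfl⟩
      have hx : ∃ e', σ e' = σ e := ⟨e, rfl⟩
      rw [dif_pos hx, hinj hx.choose_spec]
      exact h e he
    · intro h e he
      have hx : ∃ e', σ e' = σ e := ⟨e, rfl⟩
      have := h (σ e) ⟨e, he, rfl⟩
      rwa [dif_pos hx, hinj hx.choose_spec] at this
  rw [hpre, Measure.infinitePi_pi]
  · rw [Finset.prod_image (fun a _ b _ h => hinj h)]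
    refine Finset.prod_congr rfl fun e _ => ?_
    have hx : ∃ e', σ e' = σ e := ⟨e, rfl⟩
    rw [dif_pos hx, hinj hx.choose_spec, hedge e]
  · intro f _
    by_cases h : ∃ e, σ e = f
    · rw [dif_pos h]; exact ht _
    · rw [dif_neg h]; exact MeasurableSet.univ

lemma measure_infAt_iso {G : SimpleGraph V} {G' : SimpleGraph V'} [G'.LocallyFinite]
    [Countable V'] (φ : G ≃g G') (p : unitInterval) (x : V) :
    setBer(G'.edgeSet, p) (infAt G' (φ x)) = setBer(G.edgeSet, p) (infAt G x) := by
  rw [← map_push φ, Measure.map_apply (measurable_push φ) (measurableSet_infAt G' _), infAt_push]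

variable (G : SimpleGraph V) [G.LocallyFinite]

omit [G.LocallyFinite] in
lemma unique_eq : uniqueInf G =
    percolates G ∩ ⋂ a, ⋂ b, ((infAt G a ∩ infAt G b)ᶜ ∪ conn G a b) := by
  ext ω
  have hsupp : ∀ a, ((openGraph G ω).connectedComponentMk a).supp = cluster G ω a := by
    intro a
    ext z
    simp [cluster, SimpleGraph.reachable_comm]
  simp only [uniqueInf, percolates, infAt, conn, Set.mem_ofPred_eq, Set.mem_inter_iff,
    Set.mem_iInter, Set.mem_union, Set.mem_compl_iff, ← imp_iff_not_or]
  constructor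
  · rintro ⟨c, hc, huniq⟩
    induction c using SimpleGraph.ConnectedComponent.ind with
    | h a0 =>
      refine ⟨⟨a0, by simpa [hsupp] using hc⟩, fun a b hab => ?_⟩
      have ha := huniq _ (show ((openGraph G ω).connectedComponentMk a).supp.Infinite by
        rw [hsupp]; exact hab.1)
      have hb := huniq _ (show ((openGraph G ω).connectedComponentMk b).supp.Infinite by
        rw [hsupp]; exact hab.2)
      exact SimpleGraph.ConnectedComponent.exact (ha.trans hb.symm)
  · rintro ⟨⟨a, ha⟩, h⟩
    refine ⟨(openGraph G ω).connectedComponentMk a, by simpa [hsupp] using ha, fun c hc => ?_⟩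
    induction c using SimpleGraph.ConnectedComponent.ind with
    | h b => exact SimpleGraph.ConnectedComponent.sound (h b a ⟨by rwa [← hsupp], ha⟩)

lemma orbit_infinite [Infinite V] (hc : G.Connected) (hqt : QuasiTransitive G) (x : V) :
    {z | ∃ φ : G ≃g G, φ x = z}.Infinite := by
  intro hfin
  obtain ⟨S, hS⟩ := hqt
  have hw : ∀ s : V, Nonempty (G.Walk x s) := fun s => hc.preconnected x s
  set D := S.sup (fun s => (hw s).some.length) with hD
  refine Set.infinite_univ.mono (?_ : Set.univ ⊆ _)
    (Set.Finite.biUnion hfin fun o _ =>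
      Set.Finite.biUnion (Finset.range (D + 1)).finite_toSet fun k _ => (sphere G o k).finite_toSet)
  intro z _
  obtain ⟨φ, hφ⟩ := hS z
  set w := (hw (φ z)).some
  have w' : G.Walk (φ.symm (φ z)) (φ.symm x) := w.reverse.map φ.symm.toHom
  refine Set.mem_biUnion (x := φ.symm x) ⟨φ.symm, rfl⟩ (Set.mem_biUnion (x := w.length) ?_ ?_)
  · simp only [Finset.coe_range, Set.mem_Iio]
    exact Nat.lt_succ_of_le (Finset.le_sup (f := fun s => (hw s).some.length) hφ)
  · have := mem_sphere (w.reverse.map φ.symm.toHom) (k := w.length) (by simp)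
    simpa using this

lemma spread {O : Set V} (hO : O.Infinite) (L : ℕ) :
    ∀ m : ℕ, ∃ T : Finset V, ↑T ⊆ O ∧ T.card = m ∧
      ∀ a ∈ T, ∀ b ∈ T, a ≠ b → ∀ w : G.Walk a b, L ≤ w.length := by
  intro m
  induction m with
  | zero => exact ⟨∅, by simp, by simp, by simp⟩
  | succ m ih =>
    obtain ⟨T, hTO, hc, hT⟩ := ih
    set Bad := T ∪ T.biUnion (fun o => (Finset.range L).biUnion fun k => sphere G o k) with hB
    obtain ⟨z, hzO, hz⟩ := (hO.sdiff Bad.finite_toSet).nonempty
    have hzT : z ∉ T := fun h => hz (Finset.mem_union_left _ h)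
    have key : ∀ b ∈ T, ∀ w : G.Walk z b, L ≤ w.length := by
      intro b hb w
      by_contra h
      exact hz (Finset.mem_union_right _ (Finset.mem_biUnion.2 ⟨b, hb, Finset.mem_biUnion.2
        ⟨w.length, Finset.mem_range.2 (not_le.1 h), mem_sphere w rfl⟩⟩))
    refine ⟨insert z T, ?_, by rw [Finset.card_insert_of_notMem hzT, hc], ?_⟩
    · rw [Finset.coe_insert, Set.insert_subset_iff]
      exact ⟨hzO, hTO⟩
    · intro a ha b hb hab w
      rcases Finset.mem_insert.1 ha with ha' | ha' <;> rcases Finset.mem_insert.1 hb with hb' | hb'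
      · exact absurd (ha'.trans hb'.symm) hab
      · subst ha'; exact key b hb' w
      · subst hb'; simpa using key a ha' w.reverse
      · exact hT a ha' b hb' hab w

omit [G.LocallyFinite] in
lemma bonferroni {μ : Measure (Set (Sym2 V))} [IsProbabilityMeasure μ] (E : V → Set (Set (Sym2 V)))
    (hE : ∀ a, MeasurableSet (E a)) (θ ε : ℝ) (hε : 0 ≤ ε) :
    ∀ T : Finset V, (∀ a ∈ T, θ ≤ μ.real (E a)) →
      (∀ a ∈ T, ∀ b ∈ T, a ≠ b → μ.real (E a ∩ E b) ≤ ε) →
      T.card * θ - (T.card : ℝ) ^ 2 * ε ≤ μ.real (⋃ a ∈ T, E a) := by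
  intro T
  induction T using Finset.induction_on with
  | empty => simp
  | insert a T ha ih =>
    intro h1 h2
    have hi := ih (fun b hb => h1 b (Finset.mem_insert_of_mem hb))
      (fun b hb c hc => h2 b (Finset.mem_insert_of_mem hb) c (Finset.mem_insert_of_mem hc))
    rw [Finset.set_biUnion_insert, Finset.card_insert_of_notMem ha]
    have hu := measureReal_union_add_inter (μ := μ) (s := E a)
      (t := ⋃ b ∈ T, E b) (Finset.measurableSet_biUnion _ fun b _ => hE b) (measure_ne_top _ _)
      (measure_ne_top _ _)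
    have hint : μ.real (E a ∩ ⋃ b ∈ T, E b) ≤ T.card * ε := by
      rw [Set.inter_iUnion₂]
      refine (measureReal_biUnion_finset_le _ _).trans ?_
      calc ∑ b ∈ T, μ.real (E a ∩ E b) ≤ ∑ b ∈ T, ε := Finset.sum_le_sum fun b hb =>
            h2 a (Finset.mem_insert_self _ _) b (Finset.mem_insert_of_mem hb)
              (fun h => ha (h ▸ hb))
        _ = T.card * ε := by simp
    have := h1 a (Finset.mem_insert_self _ _)
    push_cast
    nlinarith

/-- No uniqueness below the inverse spectral radius. -/
theorem not_unique [Infinite V] (hc : G.Connected) (hqt : QuasiTransitive G) (p : unitInterval)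
    {lam : ℝ} (hl : 0 < lam)
    (hq : ∀ (U : Finset V) (f : V → ℝ), |quad G U f| ≤ lam * ∑ x ∈ U, f x ^ 2)
    (hp : (p : ℝ) * lam < 1) : setBer(G.edgeSet, p) (uniqueInf G) ≠ 1 := by
  intro hone
  have := countable_of_connected G hc
  set μ := setBer(G.edgeSet, p)
  have hmeas : MeasurableSet (uniqueInf G) := by
    rw [unique_eq, percolates_eq]
    exact (MeasurableSet.iUnion fun x => measurableSet_infAt G x).inter (MeasurableSet.iInter
      fun a => MeasurableSet.iInter fun b => (((measurableSet_infAt G a).inter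
        (measurableSet_infAt G b)).compl.union (measurableSet_conn G a b)))
  have hnull : μ (uniqueInf G)ᶜ = 0 := (prob_compl_eq_zero_iff hmeas).2 hone
  have hx : ∃ x, 0 < μ (infAt G x) := by
    by_contra h
    push Not at h
    have : μ (percolates G) = 0 := by
      rw [percolates_eq]
      exact measure_iUnion_null fun x => le_antisymm (h x) bot_le
    have h2 : μ (uniqueInf G) ≤ μ (percolates G) :=
      measure_mono (by rw [unique_eq]; exact Set.inter_subset_left)
    rw [hone, this] at h2
    exact absurd h2 (by simp)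
  obtain ⟨x, hx⟩ := hx
  set θ := μ.real (infAt G x) with hθ
  have hθ0 : 0 < θ := ENNReal.toReal_pos hx.ne' (measure_ne_top _ _)
  obtain ⟨m, hm⟩ := exists_nat_gt (2 / θ)
  have hmθ : 2 < m * θ := by rwa [div_lt_iff₀ hθ0] at hm
  have hm0 : (0 : ℝ) < m := by
    by_contra h
    nlinarith [Nat.cast_nonneg (α := ℝ) m]
  have hr0 : 0 ≤ (p : ℝ) * lam := mul_nonneg p.2.1 hl.le
  have hinv : 0 < (1 - (p : ℝ) * lam)⁻¹ := inv_pos.2 (by linarith)
  obtain ⟨L, hL⟩ := exists_pow_lt_of_lt_one
    (show 0 < ((m : ℝ) ^ 2)⁻¹ / (1 - (p : ℝ) * lam)⁻¹ by positivity) hp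
  obtain ⟨T, hTO, hTc, hTd⟩ := spread G (orbit_infinite G hc hqt x) L m
  set ε := ((p : ℝ) * lam) ^ L * (1 - (p : ℝ) * lam)⁻¹ with hεd
  have hε0 : 0 ≤ ε := by positivity
  have hε : (m : ℝ) ^ 2 * ε ≤ 1 := by
    rw [lt_div_iff₀ hinv] at hL
    calc (m : ℝ) ^ 2 * ε ≤ (m : ℝ) ^ 2 * ((m : ℝ) ^ 2)⁻¹ :=
          mul_le_mul_of_nonneg_left hL.le (by positivity)
      _ = 1 := mul_inv_cancel₀ (by positivity)
  have hb := bonferroni (μ := μ) (fun a => infAt G a) (measurableSet_infAt G) θ ε hε0 T
    (fun a ha => by
      obtain ⟨φ, rfl⟩ := hTO ha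
      rw [hθ, measureReal_def, measureReal_def, measure_infAt_iso φ p x])
    (fun a ha b hb hab => by
      refine ENNReal.toReal_le_of_le_ofReal hε0 ?_
      have hsub : infAt G a ∩ infAt G b ⊆ (uniqueInf G)ᶜ ∪ conn G a b := by
        intro ω hω
        by_cases hu : ω ∈ uniqueInf G
        · rw [unique_eq, Set.mem_inter_iff, Set.mem_iInter] at hu
          exact Or.inr ((Set.mem_iInter.1 (hu.2 a) b).resolve_left (fun h => h hω))
        · exact Or.inl hu
      refine ((measure_mono hsub).trans (measure_union_le _ _)).trans ?_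
      rw [hnull, zero_add]
      exact tau_le G p hl hq hp a b L (hTd a ha b hb hab))
  rw [hTc] at hb
  have : μ.real (⋃ a ∈ T, infAt G a) ≤ 1 := measureReal_le_one
  linarith

/-- Lower bound for the uniqueness threshold. -/
theorem inv_le_pu [Infinite V] (hc : G.Connected) (hqt : QuasiTransitive G)
    {lam : ℝ} (hl : 0 < lam)
    (hq : ∀ (U : Finset V) (f : V → ℝ), |quad G U f| ≤ lam * ∑ x ∈ U, f x ^ 2) :
    lam⁻¹ ≤ pu G := by
  have := countable_of_connected G hc
  refine le_csInf ?_ ?_
  · refine ⟨1, 1, ?_, by simp⟩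
    have hG : openGraph G G.edgeSet = G := by simp [openGraph]
    have hmem : G.edgeSet ∈ uniqueInf G := by
      obtain ⟨x⟩ := hc.nonempty
      have hs : ∀ c : (openGraph G G.edgeSet).ConnectedComponent, c.supp = Set.univ := by
        intro c
        induction c using SimpleGraph.ConnectedComponent.ind with
        | h a =>
          ext z
          have : (openGraph G G.edgeSet).Reachable z a := by rw [hG]; exact hc.preconnected z a
          simpa using SimpleGraph.ConnectedComponent.sound this
      refine ⟨(openGraph G G.edgeSet).connectedComponentMk x, by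
        simpa [hs] using Set.infinite_univ (α := V), fun c _ => ?_⟩
      apply SimpleGraph.ConnectedComponent.supp_injective
      rw [hs, hs]
    simp [setBernoulli_one, hmem]
  · rintro _ ⟨p, hp, rfl⟩
    by_contra h
    refine not_unique G hc hqt p hl hq ?_ hp
    calc (p : ℝ) * lam < lam⁻¹ * lam := mul_lt_mul_of_pos_right (not_le.1 h) hl
      _ = 1 := inv_mul_cancel₀ hl.ne'

omit [G.LocallyFinite] in
/-- Upper bound for the critical probability. -/
theorem pc_le {p : unitInterval} (h : 0 < setBer(G.edgeSet, p) (percolates G)) :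
    pc G ≤ (p : ℝ) :=
  csInf_le ⟨0, by rintro _ ⟨q, -, rfl⟩; exact q.2.1⟩ ⟨p, h, rfl⟩

lemma percolates_iso {G : SimpleGraph V} {G' : SimpleGraph V'} [G'.LocallyFinite] [Countable V']
    (φ : G ≃g G') (p : unitInterval) (h : 0 < setBer(G.edgeSet, p) (percolates G)) :
    0 < setBer(G'.edgeSet, p) (percolates G') := by
  rw [← map_push φ, Measure.map_apply (measurable_push φ)
    (by rw [percolates_eq]; exact MeasurableSet.iUnion fun x => measurableSet_infAt G' x)]
  refine h.trans_le (measure_mono ?_)
  rw [percolates_eq, percolates_eq, Set.preimage_iUnion]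
  refine Set.iUnion_subset fun x => ?_
  rw [← infAt_push φ x]
  exact Set.subset_iUnion (fun y => push φ ⁻¹' infAt G' y) (φ x)

end P165
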